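/-
Row 210 (S0432), layer TF (Bochner, test functions, cut-offs, density).  Architect: helper562.
WHAT TF NEEDS FROM THE UPSTREAM LAYERS (GCB, GCD, BE, LP, RS).  Every statement is now PROVED from the real export of
the upstream interface (`GCB/Ifc`, `GCB/IfcA`, `GCD/Ifc`, `BE/Ifc`, `LP/Ifc`, `RS/Ifc`): TF has no sorry of its own here.
Nobody but the architect of TF edits this file.  Contract: `git show origin/helper928:docs/R210_wave2.md`.
All statements take `hS : Std m K N` and `[ProperSpace X]` even where this is not necessary.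
-/
import Claimed.Agent.R210.Defs2
import Claimed.Agent.R210.GCB.Ifc
import Claimed.Agent.R210.GCD.Ifc
import Claimed.Agent.R210.BE.Ifc
import Claimed.Agent.R210.LP.Ifc
import Claimed.Agent.R210.RS.Ifc

set_option autoImplicit false
set_option linter.unusedVariables false

open Claims.C0366 Claims.C0366.WeakHessian
open Set Filter MeasureTheory
open scoped ENNReal NNReal Topology

namespace Claimed.Agent.R210.TF.Need

open Claimed.Agent.R210.Defs Claimed.Agent.R210.Defs2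
open Claimed.Agent.R210.GCB.Defs Claimed.Agent.R210.GCB.IfcA Claimed.Agent.R210.GCB.Ifc
open Claimed.Agent.R210.GCD.Ifc Claimed.Agent.R210.BE.Ifc

variable {X : Type*} [MetricSpace X] [MeasurableSpace X] [BorelSpace X] [ProperSpace X]
variable {m : Measure X} {K N : ℝ}

/-! ### GCB : weak gradients, classes -/

/-- (TP2) a.e. equal functions have the same weak gradient (equality of functions). -/
theorem tf_need_wg_congr (hS : Std m K N) {f g : X → ℝ} (h : f =ᵐ[m] g) :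
    weakGradient m f = weakGradient m g :=
  gcb_wg_congr h

theorem tf_need_localSobolev_congr (hS : Std m K N) {f g : X → ℝ} (h : f =ᵐ[m] g)
    (hf : LocalSobolev m f) : LocalSobolev m g :=
  gcb_locSob_congr h hf

theorem tf_need_wg_aesm (hS : Std m K N) (f : X → ℝ) :
    AEStronglyMeasurable (weakGradient m f) m :=
  gcb_wg_aesm m f

theorem tf_need_wg_nonneg (hS : Std m K N) (f : X → ℝ) : ∀ᵐ x ∂m, 0 ≤ weakGradient m f x :=
  gcb_wg_nonneg m f

theorem tf_need_lip_localSobolev (hS : Std m K N) {f : X → ℝ} (hf : GloballyLipschitz f) :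
    LocalSobolev m f :=
  gcb_locSob_of_lip hS hf

theorem tf_need_lip_wg_le (hS : Std m K N) {f : X → ℝ} {L : ℝ≥0} (hf : LipschitzWith L f) :
    ∀ᵐ x ∂m, weakGradient m f x ≤ L :=
  gcb_wg_le_lip hS hf

theorem tf_need_lipC_sobolev (hS : Std m K N) {f : X → ℝ} (hf : LipC f) : Sobolev m f :=
  gcb_sob_of_lipC hS hf

theorem tf_need_localSobolev_add (hS : Std m K N) {f g : X → ℝ} (hf : LocalSobolev m f)
    (hg : LocalSobolev m g) : LocalSobolev m (fun x => f x + g x) :=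
  gcb_locSob_add hS hf hg

theorem tf_need_localSobolev_smul (hS : Std m K N) (c : ℝ) {f : X → ℝ} (hf : LocalSobolev m f) :
    LocalSobolev m (fun x => c * f x) :=
  gcb_locSob_const_mul hS c hf

theorem tf_need_localSobolev_const (hS : Std m K N) (c : ℝ) :
    LocalSobolev m (fun _ : X => c) :=
  gcb_locSob_const hS c

theorem tf_need_localSobolev_posPart (hS : Std m K N) {f : X → ℝ} (hf : LocalSobolev m f) :
    LocalSobolev m (fun x => max (f x) 0) :=
  gcb_locSob_posPart hS hf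

theorem tf_need_localSobolev_wfun (hS : Std m K N) (x₀ : X) : LocalSobolev m (wfun x₀) :=
  gcb_locSob_wfun hS x₀

theorem tf_need_sobolev_add (hS : Std m K N) {f g : X → ℝ} (hf : Sobolev m f)
    (hg : Sobolev m g) : Sobolev m (fun x => f x + g x) :=
  gcb_sob_add hS hf hg

theorem tf_need_sobolev_smul (hS : Std m K N) (c : ℝ) {f : X → ℝ} (hf : Sobolev m f) :
    Sobolev m (fun x => c * f x) :=
  gcb_sob_const_mul hS c hf

/-- `Sobolev · LipB ⊂ Sobolev`. -/
theorem tf_need_sobolev_mul_lipB (hS : Std m K N) {f g : X → ℝ} (hf : Sobolev m f)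
    (hg : LipB g) : Sobolev m (fun x => g x * f x) :=
  gcb_sob_mul_lipB hS hg hf

/-- locality: `|Df| = 0` a.e. on a level set. -/
theorem tf_need_wg_eq_zero_of_eq_const (hS : Std m K N) {f : X → ℝ} (hf : LocalSobolev m f)
    (c : ℝ) : ∀ᵐ x ∂m, f x = c → weakGradient m f x = 0 :=
  gcb_wg_eq_zero_on_const hS hf c

/-- `LipC` is dense in `L²`. -/
theorem tf_need_lipC_dense_L2 (hS : Std m K N) {f : X → ℝ} (hf : MemLp f 2 m) :
    ∃ fs : ℕ → X → ℝ, (∀ n, LipC (fs n)) ∧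
      Tendsto (fun n => ∫ x, (fs n x - f x) ^ 2 ∂m) atTop (𝓝 0) := by
  have hε : ∀ n : ℕ, ENNReal.ofReal (1 / ((n : ℝ) + 1)) ≠ 0 := fun n => by
    have : (0 : ℝ) < 1 / ((n : ℝ) + 1) := by positivity
    simpa using this
  choose fs h1 h2 using fun n : ℕ => RS.Ifc.rs_dense_lip hS.finite hf (hε n)
  have hC : ∀ n, LipC (fs n) := fun n =>
    ⟨(h2 n).1, by
      have hb : Bornology.IsBounded (Function.support (fs n)) := (h2 n).2
      exact hb.isCompact_closure⟩
  have hM : ∀ n, MemLp (fun x => fs n x - f x) 2 m := fun n =>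
    gcd_memLp_sub (gcb_sob_of_lipC hS (hC n)).1 hf
  refine ⟨fs, hC, (gcd_tendsto_L2_iff hM).1 ?_⟩
  have hlim : Tendsto (fun n : ℕ => ENNReal.ofReal (1 / ((n : ℝ) + 1))) atTop (𝓝 0) := by
    have := ENNReal.tendsto_ofReal (tendsto_one_div_add_atTop_nhds_zero_nat (𝕜 := ℝ))
    simpa using this
  refine tendsto_of_tendsto_of_tendsto_of_le_of_le tendsto_const_nhds hlim (fun _ => bot_le)
    (fun n => ?_)
  have e : eLpNorm (fun x => fs n x - f x) 2 m = eLpNorm (f - fs n) 2 m := by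
    rw [← eLpNorm_neg]
    congr 1
    funext x
    simp
  show eLpNorm (fun x => fs n x - f x) 2 m ≤ _
  rw [e]
  exact h1 n

/-! ### GCB : the carré du champ -/

theorem tf_need_gamma_self (hS : Std m K N) {f : X → ℝ} (hf : LocalSobolev m f) :
    ∀ᵐ x ∂m, gamma m f f x = weakGradient m f x ^ 2 :=
  gcb_gamma_self hS hf

theorem tf_need_gamma_comm (hS : Std m K N) {f g : X → ℝ} (hf : LocalSobolev m f)
    (hg : LocalSobolev m g) : ∀ᵐ x ∂m, gamma m f g x = gamma m g f x :=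
  Eventually.of_forall fun x => congrFun (gcb_gamma_comm m f g) x

theorem tf_need_gamma_add_left (hS : Std m K N) {f₁ f₂ g : X → ℝ} (hf₁ : LocalSobolev m f₁)
    (hf₂ : LocalSobolev m f₂) (hg : LocalSobolev m g) :
    ∀ᵐ x ∂m, gamma m (fun y => f₁ y + f₂ y) g x = gamma m f₁ g x + gamma m f₂ g x :=
  gcb_gamma_add_left hS hf₁ hf₂ hg

theorem tf_need_gamma_smul_left (hS : Std m K N) (c : ℝ) {f g : X → ℝ} (hf : LocalSobolev m f)
    (hg : LocalSobolev m g) :
    ∀ᵐ x ∂m, gamma m (fun y => c * f y) g x = c * gamma m f g x :=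
  gcb_gamma_const_mul_left hS c hf hg

theorem tf_need_gamma_cs (hS : Std m K N) {f g : X → ℝ} (hf : LocalSobolev m f)
    (hg : LocalSobolev m g) :
    ∀ᵐ x ∂m, |gamma m f g x| ≤ weakGradient m f x * weakGradient m g x :=
  gcb_gamma_abs_le hS hf hg

/-- chain rule for the positive part, in the only form used by TF: `Γ(f, f₊) = 1_{f>0} Γ(f) ≥ 0`. -/
theorem tf_need_gamma_posPart_nonneg (hS : Std m K N) {f : X → ℝ} (hf : LocalSobolev m f) :
    ∀ᵐ x ∂m, 0 ≤ gamma m f (fun y => max (f y) 0) x := by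
  filter_upwards [gcb_gamma_posPart_left hS hf hf, gcb_gamma_self hS hf] with x hx hs
  rw [gcb_gamma_comm m f (fun y => max (f y) 0)]
  rcases lt_or_ge 0 (f x) with h | h
  · rw [hx.1 h, hs]
    positivity
  · rw [hx.2 h]

/-! ### GCD : Laplacian, resolvent, heat flow at function level -/

theorem tf_need_isLaplacian_unique (hS : Std m K N) {u L L' : X → ℝ} (h : IsLaplacian m u L)
    (h' : IsLaplacian m u L') : L =ᵐ[m] L' :=
  gcd_isLaplacian_unique hS h h'

theorem tf_need_isLaplacian_congr (hS : Std m K N) {u u' L L' : X → ℝ} (hu : u =ᵐ[m] u')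
    (hL : L =ᵐ[m] L') (h : IsLaplacian m u L) : IsLaplacian m u' L' :=
  gcd_isLaplacian_congr hS hu hL h

theorem tf_need_isLaplacian_add (hS : Std m K N) {u v Lu Lv : X → ℝ} (hu : IsLaplacian m u Lu)
    (hv : IsLaplacian m v Lv) :
    IsLaplacian m (fun x => u x + v x) (fun x => Lu x + Lv x) :=
  gcd_isLaplacian_add hS hu hv

theorem tf_need_isLaplacian_smul (hS : Std m K N) (c : ℝ) {u Lu : X → ℝ}
    (hu : IsLaplacian m u Lu) : IsLaplacian m (fun x => c * u x) (fun x => c * Lu x) :=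
  gcd_isLaplacian_smul hS c hu

/-- `u = (1 - δΔ)⁻¹ f` solves `Δ u = (u - f)/δ`. -/
theorem tf_need_res_spec (hS : Std m K N) {f : X → ℝ} (hf : MemLp f 2 m) {δ : ℝ} (hδ : 0 < δ) :
    IsLaplacian m (resF m δ f) (fun x => (resF m δ f x - f x) / δ) :=
  gcd_resF_spec hS hδ hf

theorem tf_need_res_unique (hS : Std m K N) {f u L : X → ℝ} (hf : MemLp f 2 m) {δ : ℝ}
    (hδ : 0 < δ) (hu : IsLaplacian m u L) (h : ∀ᵐ x ∂m, u x - δ * L x = f x) :
    u =ᵐ[m] resF m δ f :=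
  gcd_resF_unique hS hδ hu h

theorem tf_need_res_contr (hS : Std m K N) {f : X → ℝ} (hf : MemLp f 2 m) {δ : ℝ} (hδ : 0 < δ) :
    ∫ x, resF m δ f x ^ 2 ∂m ≤ ∫ x, f x ^ 2 ∂m :=
  gcd_resF_sq_le hS hδ hf

theorem tf_need_res_le (hS : Std m K N) {f : X → ℝ} (hf : MemLp f 2 m) {δ : ℝ} (hδ : 0 < δ)
    {C : ℝ} (hC : 0 ≤ C) (h : ∀ᵐ x ∂m, f x ≤ C) : ∀ᵐ x ∂m, resF m δ f x ≤ C :=
  gcd_resF_le hS hδ hC hf h

theorem tf_need_res_nonneg (hS : Std m K N) {f : X → ℝ} (hf : MemLp f 2 m) {δ : ℝ} (hδ : 0 < δ)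
    (h : ∀ᵐ x ∂m, 0 ≤ f x) : ∀ᵐ x ∂m, 0 ≤ resF m δ f x :=
  gcd_resF_nonneg hS hδ hf h

theorem tf_need_res_tendsto_L2 (hS : Std m K N) {f : X → ℝ} (hf : MemLp f 2 m) :
    Tendsto (fun δ : ℝ => ∫ x, (resF m δ f x - f x) ^ 2 ∂m) (𝓝[>] 0) (𝓝 0) :=
  (gcd_tendsto_L2_iff (F := fun (δ : ℝ) x => resF m δ f x - f x)
    (fun δ => gcd_memLp_sub (gcd_resF_memLp δ f) hf)).1 (gcd_resF_tendsto_L2 hS hf)

theorem tf_need_res_tendsto_energy (hS : Std m K N) {f : X → ℝ} (hf : Sobolev m f) :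
    Tendsto (fun δ : ℝ => energy m (fun x => resF m δ f x - f x)) (𝓝[>] 0) (𝓝 0) :=
  gcd_resF_tendsto_energy hS hf

/-- form-domain criterion (HS2). -/
theorem tf_need_sobolev_of_res_bound (hS : Std m K N) {f : X → ℝ} (hf : MemLp f 2 m) {C : ℝ}
    (h : ∀ δ : ℝ, 0 < δ → δ ≤ 1 → (1 / δ) * ∫ x, (f x - resF m δ f x) * f x ∂m ≤ C) :
    Sobolev m f := by
  refine (gcd_resF_crit hS hf (C := C) ?_).1
  have hmem : Ioc (0 : ℝ) 1 ∈ 𝓝[>] (0 : ℝ) := Ioc_mem_nhdsGT one_pos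
  filter_upwards [hmem] with δ hδ
  have := h δ hδ.1 hδ.2
  rwa [one_div] at this

/-- heat flow preserves `W^{1,2}`. -/
theorem tf_need_heat_sobolev (hS : Std m K N) {f : X → ℝ} (hf : Sobolev m f) (t : ℝ) :
    Sobolev m (heatF m t f) :=
  gcd_heatF_sobolev_of_sobolev hS t hf

theorem tf_need_heat_memLp (hS : Std m K N) (f : X → ℝ) (t : ℝ) : MemLp (heatF m t f) 2 m :=
  gcd_heatF_memLp t f

/-- (HS3, last item) `(H_t g - g)/t → Δ g` in energy if `Δ g ∈ W^{1,2}`. -/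
theorem tf_need_heat_quot_energy (hS : Std m K N) {g : X → ℝ} (hg : InLaplacianDomain m g)
    (hL : Sobolev m (laplacian m g)) :
    Tendsto (fun t : ℝ => energy m (fun x => (heatF m t g x - g x) / t - laplacian m g x))
      (𝓝[>] 0) (𝓝 0) :=
  gcd_heatF_quot_energy hS (gcd_laplacian_spec hg) hL

/-- `(H_t h - h)/t → Δ h` in `L²`. -/
theorem tf_need_heat_quot_L2 (hS : Std m K N) {h : X → ℝ} (hh : InLaplacianDomain m h) :
    Tendsto (fun t : ℝ => ∫ x, ((heatF m t h x - h x) / t - laplacian m h x) ^ 2 ∂m)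
      (𝓝[>] 0) (𝓝 0) :=
  (gcd_tendsto_L2_iff (F := fun (t : ℝ) x => (heatF m t h x - h x) / t - laplacian m h x)
    (fun t => gcd_memLp_sub (gcd_memLp_div t (gcd_memLp_sub (gcd_heatF_memLp t h)
      (gcd_laplacian_spec hh).1.1)) (gcd_laplacian_memLp h))).1
    (gcd_heatF_quot_L2 hS (gcd_laplacian_spec hh))

/-- `|(H_t h - h)/t| ≤ sup |Δ h|`  (`H_t h - h = ∫_0^t H_s Δ h ds` and `H_s` is sub-Markov). -/
theorem tf_need_heat_quot_bdd (hS : Std m K N) {h : X → ℝ} (hh : InLaplacianDomain m h) {B : ℝ}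
    (hB : AEBdd m (laplacian m h) B) {t : ℝ} (ht : 0 < t) :
    AEBdd m (fun x => (heatF m t h x - h x) / t) B :=
  gcd_heatF_quot_aebdd hS ht (gcd_laplacian_spec hh) hB

/-- a globally Lipschitz function has an a.e. bounded weak gradient. -/
theorem tf_need_lip_wg_aebdd (hS : Std m K N) {f : X → ℝ} {L : ℝ≥0} (hf : LipschitzWith L f) :
    AEBdd m (weakGradient m f) L := by
  filter_upwards [gcb_wg_le_lip hS hf, gcb_wg_nonneg m f] with x h1 h2
  rwa [abs_of_nonneg h2]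

/-- chain rule for the Laplacian. -/
theorem tf_need_lap_chain (hS : Std m K N) {u : X → ℝ} (hu : InLaplacianDomain m u)
    (hub : BoundedFunction u) (hul : GloballyLipschitz u) {φ : ℝ → ℝ} (hφ : ContDiff ℝ 2 φ)
    (hφ0 : φ 0 = 0) :
    IsLaplacian m (fun x => φ (u x))
      (fun x => deriv φ (u x) * laplacian m u x + deriv (deriv φ) (u x) * gamma m u u x) := by
  obtain ⟨B, hB⟩ := hub
  obtain ⟨L, hL⟩ := hul
  exact gcd_lap_chain hS (gcd_laplacian_spec hu) (B := B) (Eventually.of_forall hB)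
    (tf_need_lip_wg_aebdd hS hL) hφ hφ0

/-- Leibniz rule for the Laplacian. -/
theorem tf_need_lap_mul (hS : Std m K N) {u v : X → ℝ} (hu : InLaplacianDomain m u)
    (hub : BoundedFunction u) (hul : GloballyLipschitz u) (hv : InLaplacianDomain m v)
    (hvb : BoundedFunction v) (hvl : GloballyLipschitz v) :
    IsLaplacian m (fun x => u x * v x)
      (fun x => u x * laplacian m v x + v x * laplacian m u x + 2 * gamma m u v x) := by
  obtain ⟨B, hB⟩ := hub
  obtain ⟨L, hL⟩ := hul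
  obtain ⟨B', hB'⟩ := hvb
  obtain ⟨L', hL'⟩ := hvl
  refine gcd_lap_mul hS (gcd_laplacian_spec hu) (gcd_laplacian_spec hv) (B := max B B')
    (B' := max (L : ℝ) L') (Eventually.of_forall fun x => (hB x).trans (le_max_left _ _))
    (Eventually.of_forall fun x => (hB' x).trans (le_max_right _ _)) ?_ ?_
  · filter_upwards [tf_need_lip_wg_aebdd (m := m) hS hL] with x hx
    exact hx.trans (le_max_left _ _)
  · filter_upwards [tf_need_lip_wg_aebdd (m := m) hS hL'] with x hx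
    exact hx.trans (le_max_right _ _)

/-! ### BE -/

/-- (BE2) Bakry-Emery gradient estimate in weak form. -/
theorem tf_need_be2 (hS : Std m K N) {f h : X → ℝ} (hf : Sobolev m f) (hh : MemLp h 2 m) {B : ℝ}
    (hB : AEBdd m h B) (h0 : ∀ᵐ x ∂m, 0 ≤ h x) {t : ℝ} (ht : 0 ≤ t) :
    ∫ x, gamma m (heatF m t f) (heatF m t f) x * h x ∂m ≤
      Real.exp (-2 * K * t) * ∫ x, gamma m f f x * heatF m t h x ∂m :=
  be_BE2_gamma hS hf hh hB h0 ht

/-- (BE5) `L^∞`-to-Lipschitz for the resolvent; the constant does not depend on `f, B, δ`. -/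
theorem tf_need_be5 (hS : Std m K N) : ∃ C : ℝ≥0, ∀ (f : X → ℝ) (B : ℝ≥0) (δ : ℝ),
    MemLp f 2 m → AEBdd m f B → 0 < δ → δ ≤ 1 →
      ∃ g : X → ℝ, LipschitzWith (C * B / NNReal.sqrt δ.toNNReal) g ∧ g =ᵐ[m] resF m δ f := by
  refine ⟨Real.toNNReal (2 + Real.sqrt (-K)), fun f B δ hf hB hδ hδ1 => ?_⟩
  obtain ⟨g, hg, hgf⟩ := be_BE5_bdd hS (NNReal.coe_nonneg B) hf hB hδ hδ1
  refine ⟨g, ?_, hgf⟩
  have e : Real.toNNReal ((2 + Real.sqrt (-K)) * B / Real.sqrt δ) =
      Real.toNNReal (2 + Real.sqrt (-K)) * B / NNReal.sqrt δ.toNNReal := by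
    have h2 : (0 : ℝ) ≤ 2 + Real.sqrt (-K) := by positivity
    apply NNReal.eq
    rw [Real.coe_toNNReal _ (by positivity)]
    push_cast
    rw [Real.coe_toNNReal _ h2, Real.coe_toNNReal _ hδ.le]
  rwa [e] at hg

/-! ### LP -/

/-- (LP1) Laplacian comparison, non sharp form; `c₁, c₂` depend only on `K, N`. -/
theorem tf_need_lp1 (hS : Std m K N) : ∃ c₁ c₂ : ℝ, 0 ≤ c₁ ∧ 0 ≤ c₂ ∧
    ∀ (η : X → ℝ) (x₀ : X), LipC η → (∀ x, 0 ≤ η x) →
      -(∫ z, (c₁ + c₂ * dist z x₀) * η z ∂m) ≤ ∫ z, gamma m η (wfun x₀) z ∂m := by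
  have hN : 0 < N := by linarith [hS.one_lt_N]
  have hk := CO.Ifc.co_k_pos hS.K_neg hS.one_lt_N
  refine ⟨N, N * CO.Ifc.co_k K N, hN.le, by positivity, fun η x₀ hη h0 => ?_⟩
  have h := LP.Ifc.lp_main hS x₀ hη h0
  rw [← integral_const_mul] at h
  have e : (fun z => N * ((1 + CO.Ifc.co_k K N * dist z x₀) * η z)) =
      fun z => (N + N * CO.Ifc.co_k K N * dist z x₀) * η z := by
    funext z
    ring
  rwa [e] at h

end Claimed.Agent.R210.TF.Need
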