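/-
Row 210 (S0432), layer TF: elementary consequences of `TF/Need.lean` used by all files of the layer.
-/
import Claimed.Agent.R210.TF.Need

set_option autoImplicit false
set_option linter.unusedSectionVars false

open Claims.C0366 Claims.C0366.WeakHessian
open Set Filter MeasureTheory
open scoped ENNReal NNReal Topology

namespace Claimed.Agent.R210.TF.Basic

open Claimed.Agent.R210.Defs Claimed.Agent.R210.Defs2 Claimed.Agent.R210.TF.Need

variable {X : Type*} [MetricSpace X] [MeasurableSpace X] [BorelSpace X] [ProperSpace X]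
variable {m : Measure X} {K N : ℝ}

/-! ### Laplacian -/

theorem tf_lap_spec {u : X → ℝ} (hu : InLaplacianDomain m u) : IsLaplacian m u (laplacian m u) := by
  have hu' : ∃ L, IsLaplacian m u L := hu
  unfold laplacian
  rw [dif_pos hu']
  exact Classical.choose_spec hu'

theorem tf_lap_ae_eq (hS : Std m K N) {u L : X → ℝ} (h : IsLaplacian m u L) :
    laplacian m u =ᵐ[m] L :=
  tf_need_isLaplacian_unique hS (tf_lap_spec ⟨L, h⟩) h

theorem tf_dom_sobolev {u : X → ℝ} (hu : InLaplacianDomain m u) : Sobolev m u := by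
  obtain ⟨L, hL⟩ := hu
  exact hL.1

theorem tf_lap_memLp {u : X → ℝ} (hu : InLaplacianDomain m u) : MemLp (laplacian m u) 2 m :=
  (tf_lap_spec hu).2.1

theorem tf_test_dom {g : X → ℝ} (hg : IsTestFunction m g) : InLaplacianDomain m g := hg.1

theorem tf_test_sobolev {g : X → ℝ} (hg : IsTestFunction m g) : Sobolev m g := tf_dom_sobolev hg.1

/-! ### congruence -/

theorem tf_sobolev_congr (hS : Std m K N) {f g : X → ℝ} (h : f =ᵐ[m] g) (hf : Sobolev m f) :
    Sobolev m g := by
  refine ⟨(memLp_congr_ae h).1 hf.1, tf_need_localSobolev_congr hS h hf.2.1, ?_⟩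
  rw [← tf_need_wg_congr hS h]
  exact hf.2.2

theorem tf_gamma_congr (hS : Std m K N) {f f' g g' : X → ℝ} (hf : f =ᵐ[m] f') (hg : g =ᵐ[m] g') :
    gamma m f g = gamma m f' g' := by
  funext x
  unfold gamma
  have h1 : (fun y => f y + g y) =ᵐ[m] fun y => f' y + g' y := by
    filter_upwards [hf, hg] with y h1 h2
    rw [h1, h2]
  have h2 : (fun y => f y - g y) =ᵐ[m] fun y => f' y - g' y := by
    filter_upwards [hf, hg] with y h1 h2
    rw [h1, h2]
  rw [tf_need_wg_congr hS h1, tf_need_wg_congr hS h2]

theorem tf_gamma_aesm (hS : Std m K N) (f g : X → ℝ) : AEStronglyMeasurable (gamma m f g) m := by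
  have h := (((tf_need_wg_aesm hS (fun y => f y + g y)).pow 2).sub
    ((tf_need_wg_aesm hS (fun y => f y - g y)).pow 2)).mul_const (4 : ℝ)⁻¹
  refine h.congr (Filter.Eventually.of_forall fun x => ?_)
  simp [gamma, div_eq_mul_inv]

/-! ### classes -/

theorem tf_localSobolev_sub (hS : Std m K N) {f g : X → ℝ} (hf : LocalSobolev m f)
    (hg : LocalSobolev m g) : LocalSobolev m (fun x => f x - g x) := by
  have := tf_need_localSobolev_add hS hf (tf_need_localSobolev_smul hS (-1) hg)
  simpa [sub_eq_add_neg] using this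

theorem tf_sobolev_sub (hS : Std m K N) {f g : X → ℝ} (hf : Sobolev m f)
    (hg : Sobolev m g) : Sobolev m (fun x => f x - g x) := by
  have := tf_need_sobolev_add hS hf (tf_need_sobolev_smul hS (-1) hg)
  simpa [sub_eq_add_neg] using this

theorem tf_sobolev_div (hS : Std m K N) {f : X → ℝ} (hf : Sobolev m f) (c : ℝ) :
    Sobolev m (fun x => f x / c) := by
  have := tf_need_sobolev_smul hS c⁻¹ hf
  simpa [div_eq_inv_mul] using this

theorem tf_energy_nonneg (f : X → ℝ) : 0 ≤ energy m f :=
  integral_nonneg fun _ => sq_nonneg _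

end Claimed.Agent.R210.TF.Basic
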