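/-
Row 210 (S0432), layer TF (architect helper562).  The barrier function (definition).
Proofs on paper: `git show origin/helper562:docs/R210_TF.md`; contract: `git show origin/helper928:docs/R210_wave2.md` (section TF).
-/
import Claimed.Agent.R210.TF.Basic

set_option autoImplicit false
set_option linter.unusedSectionVars false

open Claims.C0366 Claims.C0366.WeakHessian
open Set Filter MeasureTheory
open scoped ENNReal NNReal Topology

namespace Claimed.Agent.R210.TF.Bar

open Claimed.Agent.R210.Defs Claimed.Agent.R210.Defs2 Claimed.Agent.R210.TF.Need Claimed.Agent.R210.TF.Basic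

variable {X : Type*} [MetricSpace X] [MeasurableSpace X] [BorelSpace X] [ProperSpace X]
variable {m : Measure X} {K N : ℝ}

/-- the barrier `a + s d(·,x₀)²/2`. -/
noncomputable def tf_bar (a s : ℝ) (x₀ : X) (x : X) : ℝ := a + s * wfun x₀ x

theorem tf_bar_localSobolev (hS : Std m K N) (a s : ℝ) (x₀ : X) :
    LocalSobolev m (tf_bar a s x₀) :=
  tf_need_localSobolev_add hS (tf_need_localSobolev_const hS a)
    (tf_need_localSobolev_smul hS s (tf_need_localSobolev_wfun hS x₀))

theorem tf_bar_continuous (a s : ℝ) (x₀ : X) : Continuous (tf_bar a s x₀) := by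
  unfold tf_bar wfun
  fun_prop

theorem tf_bar_self (a s : ℝ) (x₀ : X) : tf_bar a s x₀ x₀ = a := by
  simp [tf_bar, wfun]

end Claimed.Agent.R210.TF.Bar
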