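/-
Row 210 (S0432), layer TF (architect helper562).  Leaf `R210 TF BarEta`: `(u - barrier)₊` is Lipschitz with compact support.
Proofs on paper: `git show origin/helper562:docs/R210_TF.md`; contract: `git show origin/helper928:docs/R210_wave2.md` (section TF).
-/
import Claimed.Agent.R210.TF.Bar

set_option autoImplicit false
set_option linter.unusedSectionVars false

open Claims.C0366 Claims.C0366.WeakHessian
open Set Filter MeasureTheory
open scoped ENNReal NNReal Topology

namespace Claimed.Agent.R210.TF.BarEta

open Claimed.Agent.R210.Defs Claimed.Agent.R210.Defs2 Claimed.Agent.R210.TF.Need Claimed.Agent.R210.TF.Basic Claimed.Agent.R210.TF.Bar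

variable {X : Type*} [MetricSpace X] [MeasurableSpace X] [BorelSpace X] [ProperSpace X]
variable {m : Measure X} {K N : ℝ}

/-- `u` Lipschitz and bounded above, `s > 0`.  Then `η = (u - (a + s d²/2))₊ ∈ LipC`:
`η = (u - (a + min (s d²/2) T))₊` for `T ≥ M - a`, `z ↦ min (s z²/2) T` is Lipschitz on `[0,∞)`, and `η = 0` where
`s d²/2 ≥ M - a`, i.e. outside a closed ball (compact: proper space). -/
theorem tf_bar_eta_lipC {u : X → ℝ} (hul : GloballyLipschitz u) {M : ℝ} (hM : ∀ x, u x ≤ M)
    (a : ℝ) {s : ℝ} (hs : 0 < s) (x₀ : X) :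
    LipC (fun x => max (u x - tf_bar a s x₀ x) 0) := by
  obtain ⟨L, hL⟩ := hul
  set T : ℝ := max (M - a) 0 with hT
  have hT0 : 0 ≤ T := le_max_right _ _
  have hTM : M - a ≤ T := le_max_left _ _
  set r : ℝ := Real.sqrt (2 * T / s) with hr
  have hr0 : 0 ≤ r := Real.sqrt_nonneg _
  have hr2 : s * r ^ 2 / 2 = T := by
    rw [hr, Real.sq_sqrt (by positivity)]
    field_simp
  -- outside the ball the function vanishes
  have hzero : ∀ x, r < dist x x₀ → max (u x - tf_bar a s x₀ x) 0 = 0 := by
    intro x hx
    refine max_eq_right ?_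
    have h1 : r ^ 2 < dist x x₀ ^ 2 := by nlinarith
    have h2 : T < s * (dist x x₀ ^ 2 / 2) := by
      rw [← hr2]
      nlinarith
    have h3 := hM x
    unfold tf_bar wfun
    linarith
  -- the truncated distance
  let w : X → ℝ := fun x => min (dist x x₀) r
  have hw0 : ∀ x, 0 ≤ w x := fun x => le_min dist_nonneg hr0
  have hwr : ∀ x, w x ≤ r := fun x => min_le_right _ _
  have hwl : LipschitzWith 1 w := (LipschitzWith.dist_left x₀).min_const r
  have hw2 : LipschitzWith (Real.toNNReal (s * r)) (fun x => a + s * (w x ^ 2 / 2)) := by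
    refine LipschitzWith.of_dist_le_mul fun x y => ?_
    rw [Real.coe_toNNReal _ (by positivity), Real.dist_eq]
    have h1 : |w x - w y| ≤ dist x y := by
      have := hwl.dist_le_mul x y
      rwa [NNReal.coe_one, one_mul, Real.dist_eq] at this
    have h2 : a + s * (w x ^ 2 / 2) - (a + s * (w y ^ 2 / 2)) = s / 2 * ((w x - w y) * (w x + w y)) := by
      ring
    rw [h2, abs_mul, abs_mul, abs_of_pos (by positivity : 0 < s / 2),
      abs_of_nonneg (add_nonneg (hw0 x) (hw0 y))]
    have h3 : |w x - w y| * (w x + w y) ≤ dist x y * (2 * r) :=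
      mul_le_mul h1 (by linarith [hwr x, hwr y]) (add_nonneg (hw0 x) (hw0 y)) dist_nonneg
    calc s / 2 * (|w x - w y| * (w x + w y)) ≤ s / 2 * (dist x y * (2 * r)) :=
          mul_le_mul_of_nonneg_left h3 (by positivity)
      _ = s * r * dist x y := by ring
  have heq : (fun x => max (u x - tf_bar a s x₀ x) 0) =
      fun x => max (u x - (a + s * (w x ^ 2 / 2))) 0 := by
    funext x
    rcases le_or_gt (dist x x₀) r with hx | hx
    · have : w x = dist x x₀ := min_eq_left hx
      rw [this]
      rfl
    · rw [hzero x hx]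
      have : w x = r := min_eq_right hx.le
      rw [this]
      refine (max_eq_right ?_).symm
      have h3 := hM x
      have h4 : s * (r ^ 2 / 2) = T := by rw [← hr2]; ring
      rw [h4]
      linarith
  refine ⟨⟨L + Real.toNNReal (s * r), ?_⟩,
    HasCompactSupport.intro (isCompact_closedBall x₀ r) fun x hx => ?_⟩
  · rw [heq]
    exact (hL.sub hw2).max_const 0
  · rw [Metric.mem_closedBall, not_le] at hx
    exact hzero x hx

end Claimed.Agent.R210.TF.BarEta
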