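/-
Row 210 (S0432), layer TF (architect helper562).  Leaf `R210 TF BasicA`: bilinearity of `gamma` in the second slot, subtraction, expansion.
Proofs on paper: `git show origin/helper562:docs/R210_TF.md`; contract: `git show origin/helper928:docs/R210_wave2.md` (section TF).
-/
import Claimed.Agent.R210.TF.Basic

set_option autoImplicit false
set_option linter.unusedSectionVars false

open Claims.C0366 Claims.C0366.WeakHessian
open Set Filter MeasureTheory
open scoped ENNReal NNReal Topology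

namespace Claimed.Agent.R210.TF.BasicA

open Claimed.Agent.R210.Defs Claimed.Agent.R210.Defs2 Claimed.Agent.R210.TF.Need Claimed.Agent.R210.TF.Basic

variable {X : Type*} [MetricSpace X] [MeasurableSpace X] [BorelSpace X] [ProperSpace X]
variable {m : Measure X} {K N : ℝ}

theorem tf_gamma_add_right (hS : Std m K N) {f g₁ g₂ : X → ℝ} (hf : LocalSobolev m f)
    (hg₁ : LocalSobolev m g₁) (hg₂ : LocalSobolev m g₂) :
    ∀ᵐ x ∂m, gamma m f (fun y => g₁ y + g₂ y) x = gamma m f g₁ x + gamma m f g₂ x := by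
  filter_upwards [tf_need_gamma_comm hS hf (tf_need_localSobolev_add hS hg₁ hg₂),
    tf_need_gamma_add_left hS hg₁ hg₂ hf, tf_need_gamma_comm hS hg₁ hf,
    tf_need_gamma_comm hS hg₂ hf] with x h1 h2 h3 h4
  rw [h1, h2, h3, h4]

theorem tf_gamma_smul_right (hS : Std m K N) (c : ℝ) {f g : X → ℝ} (hf : LocalSobolev m f)
    (hg : LocalSobolev m g) :
    ∀ᵐ x ∂m, gamma m f (fun y => c * g y) x = c * gamma m f g x := by
  filter_upwards [tf_need_gamma_comm hS hf (tf_need_localSobolev_smul hS c hg),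
    tf_need_gamma_smul_left hS c hg hf, tf_need_gamma_comm hS hg hf] with x h1 h2 h3
  rw [h1, h2, h3]

theorem tf_gamma_sub_left (hS : Std m K N) {f₁ f₂ g : X → ℝ} (hf₁ : LocalSobolev m f₁)
    (hf₂ : LocalSobolev m f₂) (hg : LocalSobolev m g) :
    ∀ᵐ x ∂m, gamma m (fun y => f₁ y - f₂ y) g x = gamma m f₁ g x - gamma m f₂ g x := by
  have he : (fun y => f₁ y - f₂ y) = (fun y => f₁ y + (-1) * f₂ y) := by
    funext y; ring
  rw [he]
  filter_upwards [tf_need_gamma_add_left hS hf₁ (tf_need_localSobolev_smul hS (-1) hf₂) hg,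
    tf_need_gamma_smul_left hS (-1) hf₂ hg] with x h1 h2
  rw [h1, h2]; ring

theorem tf_gamma_sub_right (hS : Std m K N) {f g₁ g₂ : X → ℝ} (hf : LocalSobolev m f)
    (hg₁ : LocalSobolev m g₁) (hg₂ : LocalSobolev m g₂) :
    ∀ᵐ x ∂m, gamma m f (fun y => g₁ y - g₂ y) x = gamma m f g₁ x - gamma m f g₂ x := by
  have he : (fun y => g₁ y - g₂ y) = (fun y => g₁ y + (-1) * g₂ y) := by
    funext y; ring
  rw [he]
  filter_upwards [tf_gamma_add_right hS hf hg₁ (tf_need_localSobolev_smul hS (-1) hg₂),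
    tf_gamma_smul_right hS (-1) hf hg₂] with x h1 h2
  rw [h1, h2]; ring

/-- `Γ(a + t b) = Γ(a) + 2 t Γ(a,b) + t² Γ(b)`. -/
theorem tf_gamma_expand (hS : Std m K N) {a b : X → ℝ} (ha : LocalSobolev m a)
    (hb : LocalSobolev m b) (t : ℝ) :
    ∀ᵐ x ∂m, gamma m (fun y => a y + t * b y) (fun y => a y + t * b y) x =
      gamma m a a x + 2 * t * gamma m a b x + t ^ 2 * gamma m b b x := by
  have htb : LocalSobolev m (fun y => t * b y) := tf_need_localSobolev_smul hS t hb
  have hab : LocalSobolev m (fun y => a y + t * b y) := tf_need_localSobolev_add hS ha htb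
  filter_upwards [tf_need_gamma_add_left hS ha htb hab, tf_need_gamma_smul_left hS t hb hab,
    tf_gamma_add_right hS ha ha htb, tf_gamma_add_right hS hb ha htb,
    tf_gamma_smul_right hS t ha hb, tf_gamma_smul_right hS t hb hb,
    tf_need_gamma_comm hS hb ha] with x h1 h2 h3 h4 h5 h6 h7
  rw [h1, h2, h3, h4, h5, h6, h7]; ring

/-- `Γ(c + s w, η) = s Γ(η, w)`. -/
theorem tf_gamma_affine_left (hS : Std m K N) (c s : ℝ) {w η : X → ℝ} (hw : LocalSobolev m w)
    (hη : LocalSobolev m η) :
    ∀ᵐ x ∂m, gamma m (fun y => c + s * w y) η x = s * gamma m η w x := by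
  have hc : LocalSobolev m (fun _ : X => c) := tf_need_localSobolev_const hS c
  have hsw : LocalSobolev m (fun y => s * w y) := tf_need_localSobolev_smul hS s hw
  filter_upwards [tf_need_gamma_add_left hS hc hsw hη, tf_need_gamma_smul_left hS s hw hη,
    tf_need_gamma_comm hS hw hη, tf_need_gamma_cs hS hc hη,
    tf_need_wg_eq_zero_of_eq_const hS hc c] with x h1 h2 h3 h4 h5
  have h0 : gamma m (fun _ : X => c) η x = 0 := by
    rw [h5 rfl, zero_mul] at h4
    exact abs_nonpos_iff.mp h4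
  rw [h1, h2, h3, h0, zero_add]

end Claimed.Agent.R210.TF.BasicA
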