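/-
Row 210 (S0432), layer TF (architect helper562).  Leaf `R210 TF BasicC`: `Γ(g,f) ∈ L²` when `|Dg|` is bounded; integrability against `LipC`.
Proofs on paper: `git show origin/helper562:docs/R210_TF.md`; contract: `git show origin/helper928:docs/R210_wave2.md` (section TF).
-/
import Claimed.Agent.R210.TF.Basic

set_option autoImplicit false
set_option linter.unusedSectionVars false

open Claims.C0366 Claims.C0366.WeakHessian
open Set Filter MeasureTheory
open scoped ENNReal NNReal Topology

namespace Claimed.Agent.R210.TF.BasicC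

open Claimed.Agent.R210.Defs Claimed.Agent.R210.Defs2 Claimed.Agent.R210.TF.Need Claimed.Agent.R210.TF.Basic

variable {X : Type*} [MetricSpace X] [MeasurableSpace X] [BorelSpace X] [ProperSpace X]
variable {m : Measure X} {K N : ℝ}

/-- `|Γ(g,f)| ≤ L |Df|` a.e. when `|Dg| ≤ L` a.e. -/
theorem tf_gamma_abs_le (hS : Std m K N) {g f : X → ℝ} (hg : LocalSobolev m g) {L : ℝ}
    (hL : ∀ᵐ x ∂m, weakGradient m g x ≤ L) (hf : LocalSobolev m f) :
    ∀ᵐ x ∂m, |gamma m g f x| ≤ L * weakGradient m f x := by
  filter_upwards [tf_need_gamma_cs hS hg hf, hL, tf_need_wg_nonneg hS f] with x h1 h2 h3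
  exact h1.trans (mul_le_mul_of_nonneg_right h2 h3)

theorem tf_gamma_memLp (hS : Std m K N) {g f : X → ℝ} (hg : LocalSobolev m g) {L : ℝ}
    (hL : ∀ᵐ x ∂m, weakGradient m g x ≤ L) (hf : Sobolev m f) : MemLp (gamma m g f) 2 m := by
  refine (hf.2.2.const_mul L).mono (tf_gamma_aesm hS g f) ?_
  filter_upwards [tf_gamma_abs_le hS hg hL hf.2.1] with x hx
  rw [Real.norm_eq_abs, Real.norm_eq_abs]
  exact hx.trans (le_abs_self _)

theorem tf_gamma_sq_int_le (hS : Std m K N) {g f : X → ℝ} (hg : LocalSobolev m g) {L : ℝ}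
    (hL : ∀ᵐ x ∂m, weakGradient m g x ≤ L) (hf : Sobolev m f) :
    ∫ x, gamma m g f x ^ 2 ∂m ≤ L ^ 2 * energy m f := by
  unfold energy
  rw [← integral_const_mul]
  refine integral_mono_ae (tf_gamma_memLp hS hg hL hf).integrable_sq
    (hf.2.2.integrable_sq.const_mul _) ?_
  filter_upwards [tf_gamma_abs_le hS hg hL hf.2.1] with x hx
  have := pow_le_pow_left₀ (abs_nonneg _) hx 2
  rw [sq_abs, mul_pow] at this
  exact this

/-- the weak gradient of a locally Sobolev function is locally `L²`. -/
theorem tf_wg_locallyL2 {v : X → ℝ} (hv : LocalSobolev m v) : LocallyL2 m (weakGradient m v) := by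
  have h : ∃ D, IsMinimalLocalWeakUpperGradient m v D := hv.2
  have hs : IsMinimalLocalWeakUpperGradient m v (weakGradient m v) := by
    unfold weakGradient
    rw [dif_pos h]
    exact Classical.choose_spec h
  exact hs.1.1

/-- a locally `L²` function is integrable on balls. -/
theorem tf_locallyL2_integrableOn (hS : Std m K N) {v : X → ℝ} (hv : LocallyL2 m v) (o : X) {R : ℝ}
    (hR : 0 < R) : IntegrableOn v (Metric.ball o R) m := by
  have : IsFiniteMeasure (m.restrict (Metric.ball o R)) :=
    isFiniteMeasure_restrict.2 (hS.finite _ Metric.isBounded_ball).ne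
  exact (hv o R hR).integrable (by norm_num)

/-- a compactly supported function vanishes outside a ball of positive radius. -/
theorem tf_lipC_ball {η : X → ℝ} (hη : LipC η) (o : X) :
    ∃ R : ℝ, 0 < R ∧ ∀ x, x ∉ Metric.ball o R → η x = 0 := by
  obtain ⟨r, hr⟩ := hη.2.isCompact.isBounded.subset_ball o
  refine ⟨max r 1, lt_max_of_lt_right one_pos, fun x hx => ?_⟩
  by_contra hne
  exact hx (Metric.ball_subset_ball (le_max_left _ _) (hr (subset_tsupport _ hne)))

/-- `Γ(v,η) ∈ L¹` for `v` locally Sobolev and `η` Lipschitz with compact support. -/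
theorem tf_gamma_lipC_integrable (hS : Std m K N) {v η : X → ℝ} (hv : LocalSobolev m v)
    (hη : LipC η) : Integrable (gamma m v η) m := by
  rcases isEmpty_or_nonempty X with hX | ⟨⟨o⟩⟩
  · rw [Measure.eq_zero_of_isEmpty m]
    exact integrable_zero_measure
  obtain ⟨R, hR, hball⟩ := tf_lipC_ball hη o
  obtain ⟨L, hLip⟩ := hη.1
  have hηS : LocalSobolev m η := tf_need_lip_localSobolev hS hη.1
  have hint : Integrable ((Metric.ball o R).indicator fun x => weakGradient m v x * (L : ℝ)) m := by
    rw [integrable_indicator_iff Metric.isOpen_ball.measurableSet]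
    exact (tf_locallyL2_integrableOn hS (tf_wg_locallyL2 hv) o hR).mul_const _
  refine hint.mono (tf_gamma_aesm hS v η) ?_
  filter_upwards [tf_need_gamma_cs hS hv hηS, tf_need_lip_wg_le hS hLip,
    tf_need_wg_eq_zero_of_eq_const hS hηS 0, tf_need_wg_nonneg hS v] with x h1 h2 h3 h4
  rw [Real.norm_eq_abs, Real.norm_eq_abs]
  by_cases hx : x ∈ Metric.ball o R
  · rw [indicator_of_mem hx]
    exact (h1.trans (mul_le_mul_of_nonneg_left h2 h4)).trans (le_abs_self _)
  · rw [indicator_of_notMem hx, abs_zero]
    rw [h3 (hball x hx), mul_zero] at h1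
    exact h1

/-- `v η ∈ L¹` for `v` locally `L²` and `η` Lipschitz with compact support. -/
theorem tf_mul_lipC_integrable (hS : Std m K N) {v η : X → ℝ} (hv : LocallyL2 m v)
    (hη : LipC η) : Integrable (fun x => v x * η x) m := by
  rcases isEmpty_or_nonempty X with hX | ⟨⟨o⟩⟩
  · rw [Measure.eq_zero_of_isEmpty m]
    exact integrable_zero_measure
  obtain ⟨R, hR, hball⟩ := tf_lipC_ball hη o
  obtain ⟨L, hLip⟩ := hη.1
  obtain ⟨C, hC⟩ := hη.2.exists_bound_of_continuous hLip.continuous
  have heq : (fun x => v x * η x) = (Metric.ball o R).indicator fun x => v x * η x := by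
    funext x
    by_cases hx : x ∈ Metric.ball o R
    · rw [indicator_of_mem hx]
    · rw [indicator_of_notMem hx, hball x hx, mul_zero]
  rw [heq, integrable_indicator_iff Metric.isOpen_ball.measurableSet]
  exact (tf_locallyL2_integrableOn hS hv o hR).mul_bdd
    hLip.continuous.aestronglyMeasurable (Filter.Eventually.of_forall hC)

end Claimed.Agent.R210.TF.BasicC
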