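/-
Row 210 (S0432), layer TF (architect helper562).  Leaf `R210 TF BarSuper`: the barrier is a weak supersolution of `v - δ Δ v ≥ ψ`.
Proofs on paper: `git show origin/helper562:docs/R210_TF.md`; contract: `git show origin/helper928:docs/R210_wave2.md` (section TF).
-/
import Claimed.Agent.R210.TF.Bar
import Claimed.Agent.R210.TF.BasicA
import Claimed.Agent.R210.TF.BasicC

set_option autoImplicit false
set_option linter.unusedSectionVars false

open Claims.C0366 Claims.C0366.WeakHessian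
open Set Filter MeasureTheory
open scoped ENNReal NNReal Topology

namespace Claimed.Agent.R210.TF.BarSuper

open Claimed.Agent.R210.Defs Claimed.Agent.R210.Defs2 Claimed.Agent.R210.TF.Need Claimed.Agent.R210.TF.Basic Claimed.Agent.R210.TF.Bar Claimed.Agent.R210.TF.BasicA Claimed.Agent.R210.TF.BasicC

variable {X : Type*} [MetricSpace X] [MeasurableSpace X] [BorelSpace X] [ProperSpace X]
variable {m : Measure X} {K N : ℝ}

/-- `∫ Γ(bar,η) = (1/α) ∫ Γ(η,w) ≥ -(1/α) ∫ (c₁ + c₂ d) η` (`tf_gamma_affine_left`, `hLP`) and pointwise, `d = dist x x₀`,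
`bar x - (δ/α)(c₁ + c₂ d) - ψ x ≥ ((α - d/2)² + (δ c₂ - d/2)²)/α ≥ 0` because `ψ x ≤ ψ x₀ + d`. -/
theorem tf_bar_super (hS : Std m K N) {c₁ c₂ : ℝ} (hc₁ : 0 ≤ c₁) (hc₂ : 0 ≤ c₂)
    (hLP : ∀ (η : X → ℝ) (x₀ : X), LipC η → (∀ x, 0 ≤ η x) →
      -(∫ z, (c₁ + c₂ * dist z x₀) * η z ∂m) ≤ ∫ z, gamma m η (wfun x₀) z ∂m)
    {ψ : X → ℝ} (hψ : LipschitzWith 1 ψ) (x₀ : X) {α δ : ℝ} (hα : 0 < α) (hδ : 0 < δ)
    {η : X → ℝ} (hη : LipC η) (hη0 : ∀ x, 0 ≤ η x) :
    ∫ x, ψ x * η x ∂m ≤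
      ∫ x, tf_bar (ψ x₀ + α + (δ * c₁ + δ ^ 2 * c₂ ^ 2) / α) (1 / α) x₀ x * η x ∂m
        + δ * ∫ x, gamma m (tf_bar (ψ x₀ + α + (δ * c₁ + δ ^ 2 * c₂ ^ 2) / α) (1 / α) x₀) η x ∂m := by
  set a : ℝ := ψ x₀ + α + (δ * c₁ + δ ^ 2 * c₂ ^ 2) / α with ha
  have hηL : LocalSobolev m η := tf_need_lip_localSobolev hS hη.1
  have hw : LocalSobolev m (wfun x₀) := tf_need_localSobolev_wfun hS x₀
  have hG : ∫ x, gamma m (tf_bar a (1 / α) x₀) η x ∂m
      = (1 / α) * ∫ x, gamma m η (wfun x₀) x ∂m := by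
    rw [← integral_const_mul]
    exact integral_congr_ae (tf_gamma_affine_left hS a (1 / α) hw hηL)
  have hI1 : Integrable (fun x => ψ x * η x) m :=
    tf_mul_lipC_integrable hS (tf_need_lip_localSobolev hS ⟨1, hψ⟩).1 hη
  have hI2 : Integrable (fun x => tf_bar a (1 / α) x₀ x * η x) m :=
    tf_mul_lipC_integrable hS (tf_bar_localSobolev hS a (1 / α) x₀).1 hη
  have hI3 : Integrable (fun z => (c₁ + c₂ * dist z x₀) * η z) m :=
    tf_mul_lipC_integrable hS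
      (tf_need_localSobolev_add hS (tf_need_localSobolev_const hS c₁)
        (tf_need_localSobolev_smul hS c₂
          (tf_need_lip_localSobolev hS ⟨1, LipschitzWith.dist_left x₀⟩))).1 hη
  have hlp := hLP η x₀ hη hη0
  have hpt : ∀ x, ψ x * η x ≤
      tf_bar a (1 / α) x₀ x * η x - (δ / α) * ((c₁ + c₂ * dist x x₀) * η x) := by
    intro x
    have hd : ψ x ≤ ψ x₀ + dist x x₀ := by
      have h1 := hψ.dist_le_mul x x₀
      simp only [NNReal.coe_one, one_mul, Real.dist_eq] at h1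
      linarith [le_abs_self (ψ x - ψ x₀)]
    have key : ψ x ≤ tf_bar a (1 / α) x₀ x - (δ / α) * (c₁ + c₂ * dist x x₀) := by
      have e : tf_bar a (1 / α) x₀ x - (δ / α) * (c₁ + c₂ * dist x x₀) - (ψ x₀ + dist x x₀)
          = ((α - dist x x₀ / 2) ^ 2 + (δ * c₂ - dist x x₀ / 2) ^ 2) / α := by
        simp only [tf_bar, wfun, ha]
        field_simp
        ring
      have h2 : 0 ≤ ((α - dist x x₀ / 2) ^ 2 + (δ * c₂ - dist x x₀ / 2) ^ 2) / α := by
        positivity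
      linarith
    have h3 := mul_le_mul_of_nonneg_right key (hη0 x)
    have e3 : (tf_bar a (1 / α) x₀ x - (δ / α) * (c₁ + c₂ * dist x x₀)) * η x
        = tf_bar a (1 / α) x₀ x * η x - (δ / α) * ((c₁ + c₂ * dist x x₀) * η x) := by ring
    linarith
  calc ∫ x, ψ x * η x ∂m
      ≤ ∫ x, (tf_bar a (1 / α) x₀ x * η x - (δ / α) * ((c₁ + c₂ * dist x x₀) * η x)) ∂m :=
        integral_mono hI1 (hI2.sub (hI3.const_mul _)) hpt
    _ = ∫ x, tf_bar a (1 / α) x₀ x * η x ∂m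
          - (δ / α) * ∫ x, (c₁ + c₂ * dist x x₀) * η x ∂m := by
        rw [integral_sub hI2 (hI3.const_mul _), integral_const_mul]
    _ ≤ ∫ x, tf_bar a (1 / α) x₀ x * η x ∂m
          + δ * ∫ x, gamma m (tf_bar a (1 / α) x₀) η x ∂m := by
        rw [hG]
        have h4 : 0 ≤ (δ / α) * ((∫ z, gamma m η (wfun x₀) z ∂m)
            + ∫ z, (c₁ + c₂ * dist z x₀) * η z ∂m) :=
          mul_nonneg (by positivity) (by linarith)
        have e4 : δ * ((1 / α) * ∫ z, gamma m η (wfun x₀) z ∂m)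
            = (δ / α) * ∫ z, gamma m η (wfun x₀) z ∂m := by ring
        rw [e4]
        linarith

end Claimed.Agent.R210.TF.BarSuper
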