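/-
Row 210 (S0432), layer TF (architect helper562).  Leaf `R210 TF BasicD`: full support: a.e. statements between continuous functions hold everywhere.
Proofs on paper: `git show origin/helper562:docs/R210_TF.md`; contract: `git show origin/helper928:docs/R210_wave2.md` (section TF).
-/
import Claimed.Agent.R210.TF.Basic

set_option autoImplicit false
set_option linter.unusedSectionVars false

open Claims.C0366 Claims.C0366.WeakHessian
open Set Filter MeasureTheory
open scoped ENNReal NNReal Topology

namespace Claimed.Agent.R210.TF.BasicD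

open Claimed.Agent.R210.Defs Claimed.Agent.R210.Defs2 Claimed.Agent.R210.TF.Need Claimed.Agent.R210.TF.Basic

variable {X : Type*} [MetricSpace X] [MeasurableSpace X] [BorelSpace X] [ProperSpace X]
variable {m : Measure X} {K N : ℝ}

/-- an a.e. inequality between continuous functions holds everywhere. -/
theorem tf_le_of_ae_le (hS : Std m K N) {f g : X → ℝ} (hf : Continuous f) (hg : Continuous g)
    (h : ∀ᵐ x ∂m, f x ≤ g x) : ∀ x, f x ≤ g x := by
  intro x
  by_contra hx
  have hx' : g x < f x := not_le.mp hx
  have hopen : IsOpen {y | g y < f y} := isOpen_lt hg hf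
  have hpos : 0 < m {y | g y < f y} := hS.full _ hopen ⟨x, hx'⟩
  have hzero : m {y | g y < f y} = 0 := by
    have h2 : m {y | ¬ f y ≤ g y} = 0 := ae_iff.mp h
    have h3 : {y | g y < f y} = {y | ¬ f y ≤ g y} := by
      ext y
      simp only [Set.mem_ofPred_eq, not_le]
    rw [h3]
    exact h2
  rw [hzero] at hpos
  exact lt_irrefl _ hpos

theorem tf_eq_of_ae_eq (hS : Std m K N) {f g : X → ℝ} (hf : Continuous f) (hg : Continuous g)
    (h : f =ᵐ[m] g) : f = g := by
  funext x
  apply le_antisymm
  · exact tf_le_of_ae_le hS hf hg (h.mono fun y hy => le_of_eq hy) x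
  · exact tf_le_of_ae_le hS hg hf (h.mono fun y hy => le_of_eq hy.symm) x

end Claimed.Agent.R210.TF.BasicD
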