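/-
Row 210 (S0432), layer TF (architect helper562).  Leaf `R210 TF BasicB`: integrability of `gamma`, Cauchy-Schwarz.
Proofs on paper: `git show origin/helper562:docs/R210_TF.md`; contract: `git show origin/helper928:docs/R210_wave2.md` (section TF).
-/
import Claimed.Agent.R210.TF.Basic

set_option autoImplicit false
set_option linter.unusedSectionVars false

open Claims.C0366 Claims.C0366.WeakHessian
open Set Filter MeasureTheory
open scoped ENNReal NNReal Topology

namespace Claimed.Agent.R210.TF.BasicB

open Claimed.Agent.R210.Defs Claimed.Agent.R210.Defs2 Claimed.Agent.R210.TF.Need Claimed.Agent.R210.TF.Basic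

variable {X : Type*} [MetricSpace X] [MeasurableSpace X] [BorelSpace X] [ProperSpace X]
variable {m : Measure X} {K N : ℝ}

theorem tf_wg_mul_integrable {f g : X → ℝ} (hf : Sobolev m f) (hg : Sobolev m g) :
    Integrable (fun x => weakGradient m f x * weakGradient m g x) m :=
  MemLp.integrable_mul hf.2.2 hg.2.2

/-- Cauchy-Schwarz for the weak gradients. -/
theorem tf_wg_mul_int_le (hS : Std m K N) {f g : X → ℝ} (hf : Sobolev m f) (hg : Sobolev m g) :
    ∫ x, weakGradient m f x * weakGradient m g x ∂m ≤ Real.sqrt (energy m f) * Real.sqrt (energy m g) := by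
  have e2 : ENNReal.ofReal 2 = 2 := by simp
  have h := integral_mul_le_Lp_mul_Lq_of_nonneg (μ := m) Real.HolderConjugate.two_two
    (tf_need_wg_nonneg hS f) (tf_need_wg_nonneg hS g) (by rw [e2]; exact hf.2.2) (by rw [e2]; exact hg.2.2)
  simp only [Real.rpow_two] at h
  rw [Real.sqrt_eq_rpow, Real.sqrt_eq_rpow]
  exact h

theorem tf_gamma_integrable (hS : Std m K N) {f g : X → ℝ} (hf : Sobolev m f) (hg : Sobolev m g) :
    Integrable (gamma m f g) m := by
  refine (tf_wg_mul_integrable hf hg).mono' (tf_gamma_aesm hS f g) ?_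
  filter_upwards [tf_need_gamma_cs hS hf.2.1 hg.2.1] with x hx
  rwa [Real.norm_eq_abs]

theorem tf_energy_eq (hS : Std m K N) {f : X → ℝ} (hf : LocalSobolev m f) :
    energy m f = ∫ x, gamma m f f x ∂m := by
  unfold energy
  refine integral_congr_ae ?_
  filter_upwards [tf_need_gamma_self hS hf] with x hx
  exact hx.symm

theorem tf_gamma_mul_integrable (hS : Std m K N) {f g h : X → ℝ} (hf : Sobolev m f)
    (hg : Sobolev m g) (hh : AEStronglyMeasurable h m) {B : ℝ} (hB : AEBdd m h B) :
    Integrable (fun x => gamma m f g x * h x) m := by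
  refine ((tf_gamma_integrable hS hf hg).abs.mul_const B).mono' ((tf_gamma_aesm hS f g).mul hh) ?_
  filter_upwards [hB] with x hx
  rw [Real.norm_eq_abs, abs_mul]
  exact mul_le_mul_of_nonneg_left hx (abs_nonneg _)

theorem tf_gamma_int_abs_le (hS : Std m K N) {f g h : X → ℝ} (hf : Sobolev m f)
    (hg : Sobolev m g) (hh : AEStronglyMeasurable h m) {B : ℝ} (hB : AEBdd m h B) :
    |∫ x, gamma m f g x * h x ∂m| ≤ B * (Real.sqrt (energy m f) * Real.sqrt (energy m g)) := by
  by_cases hB0 : 0 ≤ B
  · have h1 : |∫ x, gamma m f g x * h x ∂m| ≤ ∫ x, |gamma m f g x * h x| ∂m :=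
      abs_integral_le_integral_abs
    have h2 : ∫ x, |gamma m f g x * h x| ∂m
        ≤ ∫ x, B * (weakGradient m f x * weakGradient m g x) ∂m := by
      refine integral_mono_ae (tf_gamma_mul_integrable hS hf hg hh hB).abs
        ((tf_wg_mul_integrable hf hg).const_mul B) ?_
      filter_upwards [hB, tf_need_gamma_cs hS hf.2.1 hg.2.1] with x hx1 hx2
      show |gamma m f g x * h x| ≤ B * (weakGradient m f x * weakGradient m g x)
      rw [abs_mul, mul_comm B]
      exact mul_le_mul hx2 hx1 (abs_nonneg _) ((abs_nonneg _).trans hx2)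
    rw [integral_const_mul] at h2
    exact h1.trans (h2.trans (mul_le_mul_of_nonneg_left (tf_wg_mul_int_le hS hf hg) hB0))
  · have hF : ∀ᵐ x ∂m, False := by
      filter_upwards [hB] with x hx
      exact hB0 ((abs_nonneg _).trans hx)
    have hm : m = 0 := by
      rw [Filter.eventually_false_iff_eq_bot, ae_eq_bot] at hF
      exact hF
    simp [energy, hm]

/-- the form is Cauchy-Schwarz bounded. -/
theorem tf_form_abs_le (hS : Std m K N) {f g : X → ℝ} (hf : Sobolev m f) (hg : Sobolev m g) :
    |∫ x, gamma m f g x ∂m| ≤ Real.sqrt (energy m f) * Real.sqrt (energy m g) := by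
  have h := tf_gamma_int_abs_le hS hf hg (h := fun _ => (1 : ℝ)) aestronglyMeasurable_const (B := 1)
    (Filter.Eventually.of_forall fun _ => by simp)
  simpa using h

end Claimed.Agent.R210.TF.BasicB
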