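/-
Row 210 (S0432), layer TF (architect helper562).  Leaf `R210 TF L2Lim`: Cauchy-Schwarz in `L²` at function level and continuity of `∫ u h` in `h`.
Proofs on paper: `git show origin/helper562:docs/R210_TF.md`; contract: `git show origin/helper928:docs/R210_wave2.md` (section TF).
-/
import Claimed.Agent.R210.TF.Basic

set_option autoImplicit false
set_option linter.unusedSectionVars false

open Claims.C0366 Claims.C0366.WeakHessian
open Set Filter MeasureTheory
open scoped ENNReal NNReal Topology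

namespace Claimed.Agent.R210.TF.L2Lim

open Claimed.Agent.R210.Defs Claimed.Agent.R210.Defs2 Claimed.Agent.R210.TF.Need Claimed.Agent.R210.TF.Basic

variable {X : Type*} [MetricSpace X] [MeasurableSpace X] [BorelSpace X] [ProperSpace X]
variable {m : Measure X} {K N : ℝ}

theorem tf_int_mul_le (u h : X → ℝ) (hu : MemLp u 2 m) (hh : MemLp h 2 m) :
    |∫ x, u x * h x ∂m| ≤ Real.sqrt (∫ x, u x ^ 2 ∂m) * Real.sqrt (∫ x, h x ^ 2 ∂m) := by
  have h2 : ENNReal.ofReal 2 = 2 := by simp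
  have key := integral_mul_norm_le_Lp_mul_Lq (μ := m) (f := u) (g := h)
    Real.HolderConjugate.two_two (by rwa [h2]) (by rwa [h2])
  have e1 : ∀ v : X → ℝ,
      (∫ a, ‖v a‖ ^ (2 : ℝ) ∂m) ^ (1 / (2 : ℝ)) = Real.sqrt (∫ x, v x ^ 2 ∂m) := by
    intro v
    rw [Real.sqrt_eq_rpow]
    congr 1
    refine integral_congr_ae (Eventually.of_forall fun a => ?_)
    simp only [Real.rpow_two, Real.norm_eq_abs, sq_abs]
  rw [e1, e1] at key
  calc |∫ x, u x * h x ∂m| ≤ ∫ x, |u x * h x| ∂m := abs_integral_le_integral_abs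
    _ = ∫ x, ‖u x‖ * ‖h x‖ ∂m := by simp only [abs_mul, Real.norm_eq_abs]
    _ ≤ _ := key

theorem tf_mul_integrable {u h : X → ℝ} (hu : MemLp u 2 m) (hh : MemLp h 2 m) :
    Integrable (fun x => u x * h x) m :=
  hu.integrable_mul hh

/-- `u ∈ L²`, `h i → h` in `L²` ⟹ `∫ u h i → ∫ u h`. -/
theorem tf_tendsto_int_mul {ι : Type*} {l : Filter ι} {u h : X → ℝ} {hs : ι → X → ℝ}
    (hu : MemLp u 2 m) (hh : MemLp h 2 m) (hhs : ∀ᶠ i in l, MemLp (hs i) 2 m)
    (hlim : Tendsto (fun i => ∫ x, (hs i x - h x) ^ 2 ∂m) l (𝓝 0)) :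
    Tendsto (fun i => ∫ x, u x * hs i x ∂m) l (𝓝 (∫ x, u x * h x ∂m)) := by
  rw [tendsto_iff_dist_tendsto_zero]
  have hb : Tendsto (fun i => Real.sqrt (∫ x, u x ^ 2 ∂m) *
      Real.sqrt (∫ x, (hs i x - h x) ^ 2 ∂m)) l (𝓝 0) := by
    have := ((Real.continuous_sqrt.tendsto 0).comp hlim).const_mul (Real.sqrt (∫ x, u x ^ 2 ∂m))
    simpa using this
  refine squeeze_zero' (Eventually.of_forall fun _ => dist_nonneg) ?_ hb
  filter_upwards [hhs] with i hi
  rw [Real.dist_eq, ← integral_sub (tf_mul_integrable hu hi) (tf_mul_integrable hu hh)]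
  have e : (fun x => u x * hs i x - u x * h x) = fun x => u x * (hs i x - h x) := by
    funext x
    ring
  rw [e]
  exact tf_int_mul_le u _ hu (hi.sub hh)

end Claimed.Agent.R210.TF.L2Lim
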