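/-
Row 210 (S0432), layer TF (architect helper562).  Leaf `R210 TF MaxP`: comparison principle for the resolvent equation.
Proofs on paper: `git show origin/helper562:docs/R210_TF.md`; contract: `git show origin/helper928:docs/R210_wave2.md` (section TF).
-/
import Claimed.Agent.R210.TF.BasicA
import Claimed.Agent.R210.TF.BasicB
import Claimed.Agent.R210.TF.BasicC
import Claimed.Agent.R210.TF.L2Lim

set_option autoImplicit false
set_option linter.unusedSectionVars false

open Claims.C0366 Claims.C0366.WeakHessian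
open Set Filter MeasureTheory
open scoped ENNReal NNReal Topology

namespace Claimed.Agent.R210.TF.MaxP

open Claimed.Agent.R210.Defs Claimed.Agent.R210.Defs2 Claimed.Agent.R210.TF.Need Claimed.Agent.R210.TF.Basic Claimed.Agent.R210.TF.BasicA Claimed.Agent.R210.TF.BasicB Claimed.Agent.R210.TF.BasicC Claimed.Agent.R210.TF.L2Lim

variable {X : Type*} [MetricSpace X] [MeasurableSpace X] [BorelSpace X] [ProperSpace X]
variable {m : Measure X} {K N : ℝ}

/-- `u - δ Δ u = ψ`, `v` a weak supersolution (tested only with `η = (u-v)₊ ∈ LipC`) ⟹ `u ≤ v` a.e.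
Proof: `∫ u η + δ ∫ Γ(u,η) = ∫ ψ η ≤ ∫ v η + δ ∫ Γ(v,η)`, so `∫ η² + δ ∫ Γ(u-v,(u-v)₊) ≤ 0`, and
`Γ(f,f₊) ≥ 0` a.e. (`tf_need_gamma_posPart_nonneg`). -/
theorem tf_comparison (hS : Std m K N) {u ψ v : X → ℝ} {δ : ℝ} (hδ : 0 < δ)
    (hu : IsLaplacian m u (fun x => (u x - ψ x) / δ)) (hv : LocalSobolev m v)
    (hη : LipC (fun x => max (u x - v x) 0))
    (hsup : ∫ x, ψ x * max (u x - v x) 0 ∂m ≤
      ∫ x, v x * max (u x - v x) 0 ∂m
        + δ * ∫ x, gamma m v (fun y => max (u y - v y) 0) x ∂m) :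
    ∀ᵐ x ∂m, u x ≤ v x := by
  set η : X → ℝ := fun x => max (u x - v x) 0 with hηdef
  have hηS : Sobolev m η := tf_need_lipC_sobolev hS hη
  have huS : Sobolev m u := hu.1
  have hψ : MemLp ψ 2 m := by
    have h1 : MemLp (fun x => u x - δ * ((u x - ψ x) / δ)) 2 m :=
      huS.1.sub (hu.2.1.const_mul δ)
    refine (memLp_congr_ae (Filter.Eventually.of_forall fun x => ?_)).1 h1
    show u x - δ * ((u x - ψ x) / δ) = ψ x
    field_simp
    ring
  -- integrability
  have iuη : Integrable (fun x => u x * η x) m := tf_mul_integrable huS.1 hηS.1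
  have iψη : Integrable (fun x => ψ x * η x) m := tf_mul_integrable hψ hηS.1
  have ivη : Integrable (fun x => v x * η x) m := tf_mul_lipC_integrable hS hv.1 hη
  have iGu : Integrable (gamma m u η) m := tf_gamma_integrable hS huS hηS
  have iGv : Integrable (gamma m v η) m := tf_gamma_lipC_integrable hS hv hη
  -- the equation tested with η
  have hE : ∫ x, gamma m u η x ∂m = -(∫ x, (u x - ψ x) / δ * η x ∂m) := hu.2.2 η hηS
  have hE2 : ∫ x, (u x - ψ x) / δ * η x ∂m
      = (∫ x, u x * η x ∂m - ∫ x, ψ x * η x ∂m) / δ := by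
    rw [← integral_sub iuη iψη, ← integral_div]
    refine integral_congr_ae (Filter.Eventually.of_forall fun x => ?_)
    show (u x - ψ x) / δ * η x = (u x * η x - ψ x * η x) / δ
    ring
  -- positivity of Γ(u-v,(u-v)₊)
  have hpos : ∀ᵐ x ∂m, 0 ≤ gamma m u η x - gamma m v η x := by
    filter_upwards [tf_gamma_sub_left hS huS.2.1 hv hηS.2.1,
      tf_need_gamma_posPart_nonneg hS (tf_localSobolev_sub hS huS.2.1 hv)] with x h1 h2
    rw [← h1]
    exact h2
  have hG : 0 ≤ ∫ x, gamma m u η x ∂m - ∫ x, gamma m v η x ∂m := by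
    rw [← integral_sub iGu iGv]
    exact integral_nonneg_of_ae hpos
  -- ∫ η² = ∫ u η - ∫ v η
  have hsq : ∫ x, η x ^ 2 ∂m = ∫ x, u x * η x ∂m - ∫ x, v x * η x ∂m := by
    rw [← integral_sub iuη ivη]
    refine integral_congr_ae (Filter.Eventually.of_forall fun x => ?_)
    show (max (u x - v x) 0) ^ 2 = u x * max (u x - v x) 0 - v x * max (u x - v x) 0
    rcases le_total (u x - v x) 0 with h | h
    · rw [max_eq_right h]; ring
    · rw [max_eq_left h]; ring
  have hkey : ∫ x, η x ^ 2 ∂m ≤ 0 := by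
    have h3 : δ * ∫ x, gamma m u η x ∂m = -(∫ x, u x * η x ∂m - ∫ x, ψ x * η x ∂m) := by
      rw [hE, hE2]
      field_simp
    have h4 : 0 ≤ δ * (∫ x, gamma m u η x ∂m - ∫ x, gamma m v η x ∂m) :=
      mul_nonneg hδ.le hG
    rw [hsq]
    nlinarith [hsup, h3, h4]
  have iη2 : Integrable (fun x => η x ^ 2) m := by
    have := tf_mul_integrable hηS.1 hηS.1
    simpa [sq] using this
  have hzero : ∫ x, η x ^ 2 ∂m = 0 :=
    le_antisymm hkey (integral_nonneg fun x => sq_nonneg _)
  have hae : (fun x => η x ^ 2) =ᵐ[m] 0 :=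
    (integral_eq_zero_iff_of_nonneg (fun x => sq_nonneg _) iη2).1 hzero
  filter_upwards [hae] with x hx
  have h0 : η x = 0 := by
    have : η x ^ 2 = 0 := hx
    exact pow_eq_zero_iff (two_ne_zero) |>.1 this
  have h1 : u x - v x ≤ η x := le_max_left _ _
  linarith

end Claimed.Agent.R210.TF.MaxP
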