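/-
Row 210 (S0432), layer TF (architect helper562).  Leaf `R210 TF Barrier`: `|(1-δΔ)⁻¹ ψ - ψ| ≤ C √δ` for 1-Lipschitz `ψ`.
Proofs on paper: `git show origin/helper562:docs/R210_TF.md`; contract: `git show origin/helper928:docs/R210_wave2.md` (section TF).
-/
import Claimed.Agent.R210.TF.MaxP
import Claimed.Agent.R210.TF.BarEta
import Claimed.Agent.R210.TF.BarSuper
import Claimed.Agent.R210.TF.BasicD

set_option autoImplicit false
set_option linter.unusedSectionVars false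

open Claims.C0366 Claims.C0366.WeakHessian
open Set Filter MeasureTheory
open scoped ENNReal NNReal Topology

namespace Claimed.Agent.R210.TF.Barrier

open Claimed.Agent.R210.Defs Claimed.Agent.R210.Defs2 Claimed.Agent.R210.TF.Need Claimed.Agent.R210.TF.Basic Claimed.Agent.R210.TF.BasicA Claimed.Agent.R210.TF.BasicB Claimed.Agent.R210.TF.BasicC Claimed.Agent.R210.TF.L2Lim Claimed.Agent.R210.TF.MaxP Claimed.Agent.R210.TF.Bar Claimed.Agent.R210.TF.BarEta Claimed.Agent.R210.TF.BarSuper Claimed.Agent.R210.TF.BasicD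

variable {X : Type*} [MetricSpace X] [MeasurableSpace X] [BorelSpace X] [ProperSpace X]
variable {m : Measure X} {K N : ℝ}

/-- one sided bound.  Fix `x₀`, `α = √δ`, `v = tf_bar (ψ x₀ + α + (δ c₁ + δ² c₂²)/α) (1/α) x₀`; `tf_bar_eta_lipC`,
`tf_bar_super` (with `η = (u-v)₊`), `tf_comparison`, `tf_le_of_ae_le`, evaluate at `x₀`.  `C = 1 + c₁ + c₂²`. -/
theorem tf_barrier (hS : Std m K N) : ∃ C : ℝ, 0 ≤ C ∧ ∀ (ψ u : X → ℝ) (δ : ℝ),
    LipschitzWith 1 ψ → GloballyLipschitz u → BoundedFunction u → 0 < δ → δ ≤ 1 →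
    IsLaplacian m u (fun x => (u x - ψ x) / δ) → ∀ x, u x ≤ ψ x + C * Real.sqrt δ := by
  obtain ⟨c₁, c₂, hc₁, hc₂, hLP⟩ := tf_need_lp1 hS
  refine ⟨1 + c₁ + c₂ ^ 2, by positivity, ?_⟩
  intro ψ u δ hψ hul hub hδ hδ1 hu x₀
  obtain ⟨M, hM⟩ := hub
  have hM' : ∀ x, u x ≤ M := fun x => (le_abs_self _).trans (hM x)
  set α : ℝ := Real.sqrt δ with hα
  have hα0 : 0 < α := Real.sqrt_pos.2 hδ
  have hαsq : α ^ 2 = δ := Real.sq_sqrt hδ.le
  have hα1 : α ≤ 1 := by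
    rw [hα]; exact Real.sqrt_le_one.2 hδ1
  set a : ℝ := ψ x₀ + α + (δ * c₁ + δ ^ 2 * c₂ ^ 2) / α with ha
  have hs : 0 < 1 / α := by positivity
  have hη : LipC (fun x => max (u x - tf_bar a (1 / α) x₀ x) 0) := tf_bar_eta_lipC hul hM' a hs x₀
  have hsup := tf_bar_super hS hc₁ hc₂ hLP hψ x₀ hα0 hδ hη (fun x => le_max_right _ _)
  have hae := tf_comparison hS hδ hu (tf_bar_localSobolev hS a (1 / α) x₀) hη hsup
  obtain ⟨L, hL⟩ := hul
  have hall := tf_le_of_ae_le hS hL.continuous (tf_bar_continuous a (1 / α) x₀) hae x₀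
  rw [tf_bar_self] at hall
  have h1 : (δ * c₁ + δ ^ 2 * c₂ ^ 2) / α ≤ (c₁ + c₂ ^ 2) * α := by
    rw [div_le_iff₀ hα0]
    have h2 : (c₁ + c₂ ^ 2) * α * α = (c₁ + c₂ ^ 2) * δ := by
      rw [mul_assoc, ← sq, hαsq]
    rw [h2]
    have h3 : δ ^ 2 * c₂ ^ 2 ≤ δ * c₂ ^ 2 := by
      apply mul_le_mul_of_nonneg_right _ (sq_nonneg _)
      nlinarith
    nlinarith
  calc u x₀ ≤ a := hall
    _ ≤ ψ x₀ + (1 + c₁ + c₂ ^ 2) * α := by
      rw [ha]; nlinarith

/-- two sided bound: apply `tf_barrier` to `(ψ,u)` and to `(-ψ,-u)`. -/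
theorem tf_barrier_abs (hS : Std m K N) : ∃ C : ℝ, 0 ≤ C ∧ ∀ (ψ u : X → ℝ) (δ : ℝ),
    LipschitzWith 1 ψ → GloballyLipschitz u → BoundedFunction u → 0 < δ → δ ≤ 1 →
    IsLaplacian m u (fun x => (u x - ψ x) / δ) → ∀ x, |u x - ψ x| ≤ C * Real.sqrt δ := by
  obtain ⟨C, hC, h⟩ := tf_barrier hS
  refine ⟨C, hC, ?_⟩
  intro ψ u δ hψ hul hub hδ hδ1 hu x
  have h1 := h ψ u δ hψ hul hub hδ hδ1 hu x
  have hψ' : LipschitzWith 1 (fun x => -ψ x) := hψ.neg
  have hul' : GloballyLipschitz (fun x => -u x) := by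
    obtain ⟨L, hL⟩ := hul
    exact ⟨L, hL.neg⟩
  have hub' : BoundedFunction (fun x => -u x) := by
    obtain ⟨B, hB⟩ := hub
    exact ⟨B, fun x => by rw [abs_neg]; exact hB x⟩
  have hu' : IsLaplacian m (fun x => -u x) (fun x => (-u x - -ψ x) / δ) := by
    have := tf_need_isLaplacian_smul hS (-1) hu
    have e1 : (fun x => (-1 : ℝ) * u x) = fun x => -u x := by
      funext x; ring
    have e2 : (fun x => (-1 : ℝ) * ((u x - ψ x) / δ)) = fun x => (-u x - -ψ x) / δ := by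
      funext x; ring
    rwa [e1, e2] at this
  have h2 := h (fun x => -ψ x) (fun x => -u x) δ hψ' hul' hub' hδ hδ1 hu' x
  rw [abs_le]
  constructor <;> linarith

end Claimed.Agent.R210.TF.Barrier
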