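/-
Row 210 (S0432), layer TF (architect helper562).  Leaf `R210 TF BochnerL`: derivative at `t = 0+` of `∫ Γ(H_t g) h`.
Proofs on paper: `git show origin/helper562:docs/R210_TF.md`; contract: `git show origin/helper928:docs/R210_wave2.md` (section TF).
-/
import Claimed.Agent.R210.TF.BasicA
import Claimed.Agent.R210.TF.BasicB

set_option autoImplicit false
set_option linter.unusedSectionVars false

open Claims.C0366 Claims.C0366.WeakHessian
open Set Filter MeasureTheory
open scoped ENNReal NNReal Topology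

namespace Claimed.Agent.R210.TF.BochnerL

open Claimed.Agent.R210.Defs Claimed.Agent.R210.Defs2 Claimed.Agent.R210.TF.Need Claimed.Agent.R210.TF.Basic Claimed.Agent.R210.TF.BasicA Claimed.Agent.R210.TF.BasicB

variable {X : Type*} [MetricSpace X] [MeasurableSpace X] [BorelSpace X] [ProperSpace X]
variable {m : Measure X} {K N : ℝ}

/-- linearity of the integral for the six terms of the expansion. -/
theorem tf_bochnerL_int_comb {I1 I2 I3 I4 I5 I6 : X → ℝ} (h1 : Integrable I1 m) (h2 : Integrable I2 m)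
    (h3 : Integrable I3 m) (h4 : Integrable I4 m) (h5 : Integrable I5 m) (h6 : Integrable I6 m) (t : ℝ) :
    ∫ x, (I1 x + 2 * t * (I2 x + I3 x) + t ^ 2 * (I4 x + 2 * I5 x + I6 x)) ∂m =
      ∫ x, I1 x ∂m + 2 * t * (∫ x, I2 x ∂m + ∫ x, I3 x ∂m) +
        t ^ 2 * (∫ x, I4 x ∂m + 2 * ∫ x, I5 x ∂m + ∫ x, I6 x ∂m) := by
  have s1 : Integrable (fun x => I2 x + I3 x) m := h2.add h3
  have s2 : Integrable (fun x => 2 * t * (I2 x + I3 x)) m := s1.const_mul _
  have s3 : Integrable (fun x => 2 * I5 x) m := h5.const_mul 2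
  have s4 : Integrable (fun x => I4 x + 2 * I5 x) m := h4.add s3
  have s5 : Integrable (fun x => I4 x + 2 * I5 x + I6 x) m := s4.add h6
  have s6 : Integrable (fun x => t ^ 2 * (I4 x + 2 * I5 x + I6 x)) m := s5.const_mul _
  have s7 : Integrable (fun x => I1 x + 2 * t * (I2 x + I3 x)) m := h1.add s2
  rw [integral_add s7 s6, integral_add h1 s2, integral_const_mul, integral_const_mul,
    integral_add h2 h3, integral_add s4 h6, integral_add h4 s3, integral_const_mul]

/-- With `d_t = (H_t g - g)/t`: `Γ(H_t g) = Γ(g) + 2 t Γ(g,d_t) + t² Γ(d_t)` (`tf_gamma_expand`), so the quotient is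
`2 ∫ Γ(g,d_t) h + t ∫ Γ(d_t) h`; `energy (d_t - Δ g) → 0` (`tf_need_heat_quot_energy`) and `tf_gamma_int_abs_le`. -/
theorem tf_bochner_lim_left (hS : Std m K N) {g h : X → ℝ} (hg : InLaplacianDomain m g)
    (hL : Sobolev m (laplacian m g)) (hh : AEStronglyMeasurable h m) {B : ℝ} (hB : AEBdd m h B) :
    Tendsto (fun t : ℝ => (∫ x, gamma m (heatF m t g) (heatF m t g) x * h x ∂m
        - ∫ x, gamma m g g x * h x ∂m) / t)
      (𝓝[>] 0) (𝓝 (2 * ∫ x, gamma m g (laplacian m g) x * h x ∂m)) := by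
  have hgS : Sobolev m g := tf_dom_sobolev hg
  obtain ⟨L, hLdef⟩ : ∃ L : X → ℝ, L = laplacian m g := ⟨_, rfl⟩
  rw [← hLdef] at hL ⊢
  obtain ⟨e, hedef⟩ : ∃ e : ℝ → X → ℝ, e = fun t x => (heatF m t g x - g x) / t - L x := ⟨_, rfl⟩
  have he : ∀ t, Sobolev m (e t) := fun t => by
    rw [hedef]
    exact tf_sobolev_sub hS
      (tf_sobolev_div hS (tf_sobolev_sub hS (tf_need_heat_sobolev hS hgS t) hgS) t) hL
  have hε : Tendsto (fun t : ℝ => energy m (e t)) (𝓝[>] 0) (𝓝 0) := by
    have := tf_need_heat_quot_energy hS hg (by rw [← hLdef]; exact hL)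
    rw [← hLdef] at this
    rw [hedef]
    exact this
  -- the exact expansion of the difference quotient
  have key : ∀ t : ℝ, 0 < t →
      (∫ x, gamma m (heatF m t g) (heatF m t g) x * h x ∂m - ∫ x, gamma m g g x * h x ∂m) / t
        - 2 * ∫ x, gamma m g L x * h x ∂m =
      2 * ∫ x, gamma m g (e t) x * h x ∂m + t * (∫ x, gamma m L L x * h x ∂m
        + 2 * ∫ x, gamma m L (e t) x * h x ∂m + ∫ x, gamma m (e t) (e t) x * h x ∂m) := by
    intro t ht
    have hdS : Sobolev m (fun y => L y + e t y) := tf_need_sobolev_add hS hL (he t)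
    have e1 : heatF m t g = fun y => g y + t * (L y + e t y) := by
      funext y
      rw [hedef]
      field_simp
      ring
    have e2 : (fun y => L y + e t y) = fun y => L y + 1 * e t y := by
      funext y
      rw [one_mul]
    have a1 := tf_gamma_expand hS hgS.2.1 hdS.2.1 t
    have a2 := tf_gamma_expand hS hL.2.1 (he t).2.1 1
    have a3 := tf_gamma_add_right hS hgS.2.1 hL.2.1 (he t).2.1
    rw [← e1] at a1
    rw [← e2] at a2
    have hae : ∀ᵐ x ∂m, gamma m (heatF m t g) (heatF m t g) x * h x =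
        gamma m g g x * h x + 2 * t * (gamma m g L x * h x + gamma m g (e t) x * h x)
          + t ^ 2 * (gamma m L L x * h x + 2 * (gamma m L (e t) x * h x)
            + gamma m (e t) (e t) x * h x) := by
      filter_upwards [a1, a2, a3] with x h1 h2 h3
      rw [h1, h2, h3]
      ring
    rw [integral_congr_ae hae, tf_bochnerL_int_comb
      (tf_gamma_mul_integrable hS hgS hgS hh hB) (tf_gamma_mul_integrable hS hgS hL hh hB)
      (tf_gamma_mul_integrable hS hgS (he t) hh hB) (tf_gamma_mul_integrable hS hL hL hh hB)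
      (tf_gamma_mul_integrable hS hL (he t) hh hB)
      (tf_gamma_mul_integrable hS (he t) (he t) hh hB) t]
    field_simp
    ring
  -- the error bound
  have hs : Tendsto (fun t : ℝ => Real.sqrt (energy m (e t))) (𝓝[>] 0) (𝓝 0) := by
    have := (Real.continuous_sqrt.tendsto 0).comp hε
    rw [Real.sqrt_zero] at this
    exact this
  have ht0 : Tendsto (fun t : ℝ => t) (𝓝[>] 0) (𝓝 0) :=
    tendsto_nhdsWithin_of_tendsto_nhds tendsto_id
  have hb : Tendsto (fun t : ℝ => 2 * (B * (Real.sqrt (energy m g) * Real.sqrt (energy m (e t))))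
      + t * (|∫ x, gamma m L L x * h x ∂m|
        + 2 * (B * (Real.sqrt (energy m L) * Real.sqrt (energy m (e t))))
        + B * (Real.sqrt (energy m (e t)) * Real.sqrt (energy m (e t))))) (𝓝[>] 0) (𝓝 0) := by
    have := ((((hs.const_mul (Real.sqrt (energy m g))).const_mul B).const_mul 2).add
      (ht0.mul ((tendsto_const_nhds (x := |∫ x, gamma m L L x * h x ∂m|).add
        (((hs.const_mul (Real.sqrt (energy m L))).const_mul B).const_mul 2)).add
        ((hs.mul hs).const_mul B))))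
    simpa using this
  rw [← tendsto_sub_nhds_zero_iff]
  refine squeeze_zero_norm' ?_ hb
  filter_upwards [self_mem_nhdsWithin] with t ht
  have ht' : (0 : ℝ) < t := ht
  rw [key t ht', Real.norm_eq_abs]
  have hA := tf_gamma_int_abs_le hS hgS (he t) hh hB
  have hC2 := tf_gamma_int_abs_le hS hL (he t) hh hB
  have hC3 := tf_gamma_int_abs_le hS (he t) (he t) hh hB
  obtain ⟨A, hAdef⟩ : ∃ A : ℝ, A = ∫ x, gamma m g (e t) x * h x ∂m := ⟨_, rfl⟩
  obtain ⟨C1, hC1def⟩ : ∃ A : ℝ, A = ∫ x, gamma m L L x * h x ∂m := ⟨_, rfl⟩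
  obtain ⟨C2, hC2def⟩ : ∃ A : ℝ, A = ∫ x, gamma m L (e t) x * h x ∂m := ⟨_, rfl⟩
  obtain ⟨C3, hC3def⟩ : ∃ A : ℝ, A = ∫ x, gamma m (e t) (e t) x * h x ∂m := ⟨_, rfl⟩
  rw [← hAdef] at hA ⊢
  rw [← hC1def]
  rw [← hC2def] at hC2 ⊢
  rw [← hC3def] at hC3 ⊢
  have h3 : |C1 + 2 * C2 + C3| ≤ |C1| + 2 * |C2| + |C3| := by
    calc |C1 + 2 * C2 + C3| ≤ |C1 + 2 * C2| + |C3| := abs_add_le _ _
      _ ≤ |C1| + |2 * C2| + |C3| := by
          gcongr
          exact abs_add_le _ _
      _ = |C1| + 2 * |C2| + |C3| := by rw [abs_mul, abs_two]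
  calc |2 * A + t * (C1 + 2 * C2 + C3)| ≤ |2 * A| + |t * (C1 + 2 * C2 + C3)| := abs_add_le _ _
    _ = 2 * |A| + t * |C1 + 2 * C2 + C3| := by rw [abs_mul, abs_mul, abs_two, abs_of_pos ht']
    _ ≤ 2 * |A| + t * (|C1| + 2 * |C2| + |C3|) := by gcongr
    _ ≤ _ := by gcongr

end Claimed.Agent.R210.TF.BochnerL
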