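/-
Row 210 (S0432), layer TF (architect helper562).  Leaf `R210 TF WeakStar`: bounded + `L²` convergence implies convergence against `L¹` (pure measure theory).
Proofs on paper: `git show origin/helper562:docs/R210_TF.md`; contract: `git show origin/helper928:docs/R210_wave2.md` (section TF).
-/
import Claimed.Agent.R210.TF.Basic

set_option autoImplicit false
set_option linter.unusedSectionVars false

open Claims.C0366 Claims.C0366.WeakHessian
open Set Filter MeasureTheory
open scoped ENNReal NNReal Topology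

namespace Claimed.Agent.R210.TF.WeakStar

open Claimed.Agent.R210.Defs Claimed.Agent.R210.Defs2 Claimed.Agent.R210.TF.Need Claimed.Agent.R210.TF.Basic

variable {X : Type*} [MetricSpace X] [MeasurableSpace X] [BorelSpace X] [ProperSpace X]
variable {m : Measure X} {K N : ℝ}

/-- the clamp of `t` to `[-n, n]`. -/
noncomputable def tf_clamp (n : ℝ) (t : ℝ) : ℝ := max (-n) (min t n)

theorem tf_clamp_continuous (n : ℝ) : Continuous (tf_clamp n) := by
  unfold tf_clamp; fun_prop

theorem tf_clamp_abs_le {n : ℝ} (hn : 0 ≤ n) (t : ℝ) : |tf_clamp n t| ≤ n := by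
  unfold tf_clamp
  rw [abs_le]
  exact ⟨le_max_left _ _, max_le (by linarith) (min_le_right _ _)⟩

theorem tf_clamp_abs_le_abs {n : ℝ} (hn : 0 ≤ n) (t : ℝ) : |tf_clamp n t| ≤ |t| := by
  unfold tf_clamp
  rw [abs_le]
  constructor
  · rcases le_total (-n) t with h | h
    · have : -|t| ≤ min t n := le_min (neg_abs_le t) (by linarith [abs_nonneg t])
      exact this.trans (le_max_right _ _)
    · have : -|t| ≤ -n := by
        have := neg_abs_le t
        have h2 : |t| = -t := abs_of_nonpos (by linarith)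
        linarith
      exact this.trans (le_max_left _ _)
  · exact max_le (by linarith [abs_nonneg t]) ((min_le_left _ _).trans (le_abs_self t))

theorem tf_clamp_of_abs_le {n t : ℝ} (h : |t| ≤ n) : tf_clamp n t = t := by
  unfold tf_clamp
  rw [abs_le] at h
  rw [min_eq_left h.2, max_eq_right h.1]

theorem tf_sub_clamp_abs_le {n : ℝ} (hn : 0 ≤ n) (t : ℝ) : |t - tf_clamp n t| ≤ |t| := by
  unfold tf_clamp
  rcases le_total t n with h1 | h1
  · rw [min_eq_left h1]
    rcases le_total (-n) t with h2 | h2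
    · rw [max_eq_right h2]; simp
    · rw [max_eq_left h2]
      have ht : t ≤ 0 := by linarith
      rw [abs_of_nonpos ht, abs_of_nonpos (by linarith)]
      linarith
  · rw [min_eq_right h1, max_eq_right (by linarith)]
    rw [abs_of_nonneg (by linarith), abs_of_nonneg (by linarith)]
    linarith

/-- the tails of an integrable function are small. -/
theorem tf_tail_tendsto {u : X → ℝ} (hu : Integrable u m) :
    Tendsto (fun n : ℕ => ∫ x, |u x - tf_clamp n (u x)| ∂m) atTop (𝓝 0) := by
  have h := tendsto_integral_of_dominated_convergence (μ := m)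
    (F := fun (n : ℕ) x => |u x - tf_clamp n (u x)|) (f := fun _ => (0 : ℝ)) (fun x => |u x|)
    (fun n => (continuous_abs.comp_aestronglyMeasurable
      (hu.1.sub ((tf_clamp_continuous n).comp_aestronglyMeasurable hu.1))))
    hu.abs
    (fun n => Eventually.of_forall (fun x => by
      rw [Real.norm_eq_abs, abs_abs]
      exact tf_sub_clamp_abs_le (Nat.cast_nonneg n) _))
    (Eventually.of_forall (fun x => by
      refine tendsto_const_nhds.congr' ?_
      obtain ⟨k, hk⟩ := exists_nat_ge |u x|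
      filter_upwards [eventually_ge_atTop k] with n hn
      have : |u x| ≤ (n : ℝ) := hk.trans (by exact_mod_cast hn)
      rw [tf_clamp_of_abs_le this]; simp))
  simpa using h

/-- If `D i → D₀` in `L²`, `|D i|, |D₀| ≤ B` a.e. and `u ∈ L¹`, then `∫ u D i → ∫ u D₀`.
Proof: split `u = u 1_{|u| ≤ n} + u 1_{|u| > n}`; the first part is in `L²` (Cauchy-Schwarz), the second has small
`L¹` norm (dominated convergence) and is multiplied by `|D i - D₀| ≤ 2B`. -/
theorem tf_weakstar {ι : Type*} {l : Filter ι} {u : X → ℝ} (hu : Integrable u m)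
    {D : ι → X → ℝ} {D₀ : X → ℝ} {B : ℝ}
    (hD : ∀ᶠ i in l, MemLp (fun x => D i x - D₀ x) 2 m) (hDB : ∀ᶠ i in l, AEBdd m (D i) B)
    (hD₀ : AEBdd m D₀ B) (hm₀ : AEStronglyMeasurable D₀ m)
    (hlim : Tendsto (fun i => ∫ x, (D i x - D₀ x) ^ 2 ∂m) l (𝓝 0)) :
    Tendsto (fun i => ∫ x, u x * D i x ∂m) l (𝓝 (∫ x, u x * D₀ x ∂m)) := by
  set C : ℝ := max B 0 with hC
  have hC0 : 0 ≤ C := le_max_right _ _
  have hBC : B ≤ C := le_max_left _ _
  set I : ℝ := ∫ x, |u x| ∂m with hI
  have hI0 : 0 ≤ I := integral_nonneg (fun x => abs_nonneg _)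
  rw [Metric.tendsto_nhds]
  intro ε hε
  -- choose `n`
  have h1 : ∀ᶠ n : ℕ in atTop, 2 * C * ∫ x, |u x - tf_clamp n (u x)| ∂m < ε / 3 := by
    have := (tf_tail_tendsto hu).const_mul (2 * C)
    rw [mul_zero] at this
    exact (tendsto_order.1 this).2 _ (by positivity)
  obtain ⟨n, hn⟩ := h1.exists
  -- choose `δ`
  set δ : ℝ := (2 * ε / 3) / (n * I + 1) / 2 with hδ
  have hden : 0 < (n : ℝ) * I + 1 := by positivity
  have hδ0 : 0 < δ := by positivity
  have h2 : δ / 2 * n * I < ε / 3 := by
    have : δ * (n * I + 1) = ε / 3 := by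
      rw [hδ]; field_simp
    nlinarith [mul_nonneg (Nat.cast_nonneg (α := ℝ) n) hI0]
  -- choose `i`
  have h3 : ∀ᶠ i in l, (∫ x, (D i x - D₀ x) ^ 2 ∂m) < 2 * δ * (ε / 3) :=
    (tendsto_order.1 hlim).2 _ (by positivity)
  filter_upwards [hD, hDB, h3] with i hi hiB hi3
  have hE : AEStronglyMeasurable (fun x => D i x - D₀ x) m := hi.1
  have hDi : AEStronglyMeasurable (D i) m := by
    have := hE.add hm₀
    refine this.congr (Eventually.of_forall (fun x => ?_))
    simp
  have hint0 : Integrable (fun x => u x * D₀ x) m := by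
    refine hu.mul_bdd (c := C) hm₀ ?_
    filter_upwards [hD₀] with x hx
    exact (Real.norm_eq_abs _).le.trans (hx.trans hBC)
  have hinti : Integrable (fun x => u x * D i x) m := by
    refine hu.mul_bdd (c := C) hDi ?_
    filter_upwards [hiB] with x hx
    exact (Real.norm_eq_abs _).le.trans (hx.trans hBC)
  have hr : Integrable (fun x => |u x - tf_clamp n (u x)|) m := by
    refine (hu.abs.mono' (continuous_abs.comp_aestronglyMeasurable
      (hu.1.sub ((tf_clamp_continuous n).comp_aestronglyMeasurable hu.1))) ?_)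
    refine Eventually.of_forall (fun x => ?_)
    rw [Real.norm_eq_abs, abs_abs]
    exact tf_sub_clamp_abs_le (Nat.cast_nonneg n) _
  have hsq : Integrable (fun x => (D i x - D₀ x) ^ 2) m := hi.integrable_sq
  rw [Real.dist_eq, ← integral_sub hinti hint0]
  have hbound : ∀ᵐ x ∂m, ‖u x * D i x - u x * D₀ x‖ ≤
      2 * C * |u x - tf_clamp n (u x)| + δ / 2 * n * |u x| +
        1 / (2 * δ) * (D i x - D₀ x) ^ 2 := by
    filter_upwards [hiB, hD₀] with x hx1 hx0
    set E : ℝ := D i x - D₀ x with hEdef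
    set v : ℝ := tf_clamp n (u x) with hv
    have hEb : |E| ≤ 2 * C := by
      calc |E| ≤ |D i x| + |D₀ x| := abs_sub _ _
        _ ≤ 2 * C := by linarith
    have hvn : |v| ≤ n := tf_clamp_abs_le (Nat.cast_nonneg n) _
    have hvu : |v| ≤ |u x| := tf_clamp_abs_le_abs (Nat.cast_nonneg n) _
    have hv2 : v ^ 2 ≤ n * |u x| := by
      rw [← sq_abs]
      nlinarith [abs_nonneg v, abs_nonneg (u x)]
    have hyoung : |v| * |E| ≤ δ / 2 * v ^ 2 + 1 / (2 * δ) * E ^ 2 := by
      have hsqn : 0 ≤ (δ * |v| - |E|) ^ 2 := sq_nonneg _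
      have e1 : δ / 2 * v ^ 2 + 1 / (2 * δ) * E ^ 2 - |v| * |E| =
          1 / (2 * δ) * (δ * |v| - |E|) ^ 2 := by
        rw [← sq_abs v, ← sq_abs E]
        field_simp
        ring
      have : 0 ≤ 1 / (2 * δ) * (δ * |v| - |E|) ^ 2 := by positivity
      linarith
    have hsplit : u x * D i x - u x * D₀ x = (u x - v) * E + v * E := by
      rw [hEdef]; ring
    rw [Real.norm_eq_abs, hsplit]
    calc |(u x - v) * E + v * E| ≤ |(u x - v) * E| + |v * E| := abs_add_le _ _
      _ = |u x - v| * |E| + |v| * |E| := by rw [abs_mul, abs_mul]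
      _ ≤ |u x - v| * (2 * C) + (δ / 2 * v ^ 2 + 1 / (2 * δ) * E ^ 2) := by
          gcongr
      _ ≤ 2 * C * |u x - v| + δ / 2 * n * |u x| + 1 / (2 * δ) * E ^ 2 := by
          have : δ / 2 * v ^ 2 ≤ δ / 2 * (n * |u x|) := by gcongr
          nlinarith
  have hRint : Integrable (fun x => 2 * C * |u x - tf_clamp n (u x)| + δ / 2 * n * |u x| +
        1 / (2 * δ) * (D i x - D₀ x) ^ 2) m :=
    ((hr.const_mul _).add (hu.abs.const_mul _)).add (hsq.const_mul _)
  calc |∫ x, (u x * D i x - u x * D₀ x) ∂m|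
      = ‖∫ x, (u x * D i x - u x * D₀ x) ∂m‖ := (Real.norm_eq_abs _).symm
    _ ≤ ∫ x, (2 * C * |u x - tf_clamp n (u x)| + δ / 2 * n * |u x| +
        1 / (2 * δ) * (D i x - D₀ x) ^ 2) ∂m := norm_integral_le_of_norm_le hRint hbound
    _ = 2 * C * (∫ x, |u x - tf_clamp n (u x)| ∂m) + δ / 2 * n * I +
        1 / (2 * δ) * ∫ x, (D i x - D₀ x) ^ 2 ∂m := by
        have e1 := integral_add (μ := m) ((hr.const_mul (2 * C)).add (hu.abs.const_mul (δ / 2 * n)))
          (hsq.const_mul (1 / (2 * δ)))
        have e2 := integral_add (μ := m) (hr.const_mul (2 * C)) (hu.abs.const_mul (δ / 2 * n))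
        simp only [Pi.add_apply] at e1 e2
        rw [e1, e2, integral_const_mul, integral_const_mul, integral_const_mul]
    _ < ε / 3 + ε / 3 + ε / 3 := by
        have h4 : 1 / (2 * δ) * ∫ x, (D i x - D₀ x) ^ 2 ∂m < ε / 3 := by
          rw [div_mul_eq_mul_div, one_mul, div_lt_iff₀ (by positivity)]
          linarith
        linarith
    _ = ε := by ring

end Claimed.Agent.R210.TF.WeakStar
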