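/-
Row 210 (S0432), layer TF (architect helper562).  Leaf `R210 TF BochnerR`: derivative at `t = 0+` of `e^{-2Kt} ∫ Γ(g) H_t h`.
Proofs on paper: `git show origin/helper562:docs/R210_TF.md`; contract: `git show origin/helper928:docs/R210_wave2.md` (section TF).
-/
import Claimed.Agent.R210.TF.BasicB
import Claimed.Agent.R210.TF.WeakStar

set_option autoImplicit false
set_option linter.unusedSectionVars false

open Claims.C0366 Claims.C0366.WeakHessian
open Set Filter MeasureTheory
open scoped ENNReal NNReal Topology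

namespace Claimed.Agent.R210.TF.BochnerR

open Claimed.Agent.R210.Defs Claimed.Agent.R210.Defs2 Claimed.Agent.R210.TF.Need Claimed.Agent.R210.TF.Basic Claimed.Agent.R210.TF.BasicB Claimed.Agent.R210.TF.WeakStar

variable {X : Type*} [MetricSpace X] [MeasurableSpace X] [BorelSpace X] [ProperSpace X]
variable {m : Measure X} {K N : ℝ}

/-- `(A(t) - A(0))/t = ∫ Γ(g) (H_t h - h)/t → ∫ Γ(g) Δ h` by `tf_weakstar`, `tf_need_heat_quot_L2`, `tf_need_heat_quot_bdd`;
`e^{-2Kt} A(t) - A(0) = e^{-2Kt} (A(t) - A(0)) + (e^{-2Kt} - 1) A(0)`. -/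
theorem tf_bochner_lim_right (hS : Std m K N) {g h : X → ℝ} (hg : Sobolev m g)
    (hh : InLaplacianDomain m h) {B : ℝ} (hB : AEBdd m h B) (hLB : AEBdd m (laplacian m h) B) :
    Tendsto (fun t : ℝ => (Real.exp (-2 * K * t) * ∫ x, gamma m g g x * heatF m t h x ∂m
        - ∫ x, gamma m g g x * h x ∂m) / t)
      (𝓝[>] 0) (𝓝 (-2 * K * ∫ x, gamma m g g x * h x ∂m
        + ∫ x, gamma m g g x * laplacian m h x ∂m)) := by
  have hu : Integrable (gamma m g g) m := tf_gamma_integrable hS hg hg
  have hh2 : MemLp h 2 m := (tf_dom_sobolev hh).1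
  have hL2 : MemLp (laplacian m h) 2 m := tf_lap_memLp hh
  have hDmem : ∀ t : ℝ, MemLp (fun x => (heatF m t h x - h x) / t) 2 m := by
    intro t
    have h1 := ((tf_need_heat_memLp hS h t).sub hh2).const_mul (t⁻¹)
    refine h1.ae_eq (Eventually.of_forall fun x => ?_)
    simp [div_eq_inv_mul]
  have hws : Tendsto (fun t : ℝ => ∫ x, gamma m g g x * ((heatF m t h x - h x) / t) ∂m) (𝓝[>] 0)
      (𝓝 (∫ x, gamma m g g x * laplacian m h x ∂m)) := by
    refine tf_weakstar hu (D := fun t x => (heatF m t h x - h x) / t) (B := B) ?_ ?_ hLB hL2.1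
      (tf_need_heat_quot_L2 hS hh)
    · exact Eventually.of_forall fun t => (hDmem t).sub hL2
    · filter_upwards [self_mem_nhdsWithin] with t ht
      exact tf_need_heat_quot_bdd hS hh hLB ht
  have hexp : Tendsto (fun t : ℝ => Real.exp (-2 * K * t)) (𝓝[>] 0) (𝓝 1) := by
    have hc : Continuous (fun t : ℝ => Real.exp (-2 * K * t)) := by fun_prop
    have h0 := hc.tendsto 0
    simp only [mul_zero, Real.exp_zero] at h0
    exact h0.mono_left nhdsWithin_le_nhds
  have hslope : Tendsto (fun t : ℝ => (Real.exp (-2 * K * t) - 1) / t) (𝓝[>] 0) (𝓝 (-2 * K)) := by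
    have hd : HasDerivAt (fun t : ℝ => Real.exp (-2 * K * t)) (-2 * K) 0 := by
      have h1 : HasDerivAt (fun t : ℝ => -2 * K * t) (-2 * K) 0 := by
        simpa using (hasDerivAt_id (0 : ℝ)).const_mul (-2 * K)
      have h2 := h1.exp
      simpa using h2
    have h3 := hd.tendsto_slope_zero_right
    refine h3.congr (fun t => ?_)
    simp [div_eq_inv_mul]
  have hfin := (hexp.mul hws).add (hslope.mul_const (∫ x, gamma m g g x * h x ∂m))
  have hval : (1 * ∫ x, gamma m g g x * laplacian m h x ∂m) + -2 * K * ∫ x, gamma m g g x * h x ∂m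
      = -2 * K * ∫ x, gamma m g g x * h x ∂m + ∫ x, gamma m g g x * laplacian m h x ∂m := by ring
  rw [hval] at hfin
  refine hfin.congr' ?_
  filter_upwards [self_mem_nhdsWithin] with t ht
  have ht0 : t ≠ 0 := ne_of_gt ht
  have hI0 : Integrable (fun x => gamma m g g x * h x) m :=
    tf_gamma_mul_integrable hS hg hg hh2.1 hB
  have hID : Integrable (fun x => gamma m g g x * ((heatF m t h x - h x) / t)) m :=
    tf_gamma_mul_integrable hS hg hg (hDmem t).1 (tf_need_heat_quot_bdd hS hh hLB ht)
  have he : (fun x => gamma m g g x * heatF m t h x)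
      = fun x => gamma m g g x * h x + t * (gamma m g g x * ((heatF m t h x - h x) / t)) := by
    funext x
    field_simp
    ring
  have hA : ∫ x, gamma m g g x * heatF m t h x ∂m = ∫ x, gamma m g g x * h x ∂m
      + t * ∫ x, gamma m g g x * ((heatF m t h x - h x) / t) ∂m := by
    rw [he, integral_add hI0 (hID.const_mul t), integral_const_mul]
  rw [hA]
  field_simp
  ring

end Claimed.Agent.R210.TF.BochnerR
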