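/-
Row 210 (S0432), layer TF (architect helper562).  TF1: weak Bochner inequality (glue).
Proofs on paper: `git show origin/helper562:docs/R210_TF.md`; contract: `git show origin/helper928:docs/R210_wave2.md` (section TF).
-/
import Claimed.Agent.R210.TF.BochnerL
import Claimed.Agent.R210.TF.BochnerR

set_option autoImplicit false
set_option linter.unusedSectionVars false

open Claims.C0366 Claims.C0366.WeakHessian
open Set Filter MeasureTheory
open scoped ENNReal NNReal Topology

namespace Claimed.Agent.R210.TF.Bochner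

open Claimed.Agent.R210.Defs Claimed.Agent.R210.Defs2 Claimed.Agent.R210.TF.Need Claimed.Agent.R210.TF.Basic Claimed.Agent.R210.TF.BasicA Claimed.Agent.R210.TF.BasicB Claimed.Agent.R210.TF.BochnerL Claimed.Agent.R210.TF.WeakStar Claimed.Agent.R210.TF.BochnerR

variable {X : Type*} [MetricSpace X] [MeasurableSpace X] [BorelSpace X] [ProperSpace X]
variable {m : Measure X} {K N : ℝ}

/-- **TF1** weak Bochner inequality: `½ ∫ Γ(g) Δh - ∫ Γ(g,Δg) h ≥ K ∫ Γ(g) h`. -/
theorem tf_bochner (hS : Std m K N) {g h : X → ℝ} (hg : InLaplacianDomain m g)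
    (hL : Sobolev m (laplacian m g)) (hh : InLaplacianDomain m h) (h0 : ∀ᵐ x ∂m, 0 ≤ h x)
    {B : ℝ} (hB : AEBdd m h B) (hLB : AEBdd m (laplacian m h) B) :
    K * ∫ x, gamma m g g x * h x ∂m ≤
      (1 / 2) * ∫ x, gamma m g g x * laplacian m h x ∂m
        - ∫ x, gamma m g (laplacian m g) x * h x ∂m := by
  have hh2 : MemLp h 2 m := (tf_dom_sobolev hh).1
  have h1 := tf_bochner_lim_left hS hg hL hh2.aestronglyMeasurable hB
  have h2 := tf_bochner_lim_right hS (tf_dom_sobolev hg) hh hB hLB
  have h3 : ∀ᶠ t : ℝ in 𝓝[>] 0,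
      (∫ x, gamma m (heatF m t g) (heatF m t g) x * h x ∂m - ∫ x, gamma m g g x * h x ∂m) / t ≤
      (Real.exp (-2 * K * t) * ∫ x, gamma m g g x * heatF m t h x ∂m
        - ∫ x, gamma m g g x * h x ∂m) / t := by
    filter_upwards [self_mem_nhdsWithin] with t ht
    have ht' : (0 : ℝ) < t := ht
    have := tf_need_be2 hS (tf_dom_sobolev hg) hh2 hB h0 ht'.le
    gcongr
  have h4 := le_of_tendsto_of_tendsto h1 h2 h3
  linarith

end Claimed.Agent.R210.TF.Bochner
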