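/-
Row 210 (S0432), layer TF (architect helper562).  Leaf `R210 TF TestBasics`: first properties of test functions.
Proofs on paper: `git show origin/helper562:docs/R210_TF.md`; contract: `git show origin/helper928:docs/R210_wave2.md` (section TF).
-/
import Claimed.Agent.R210.TF.BasicB
import Claimed.Agent.R210.TF.BasicC

set_option autoImplicit false
set_option linter.unusedSectionVars false

open Claims.C0366 Claims.C0366.WeakHessian
open Set Filter MeasureTheory
open scoped ENNReal NNReal Topology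

namespace Claimed.Agent.R210.TF.TestBasics

open Claimed.Agent.R210.Defs Claimed.Agent.R210.Defs2 Claimed.Agent.R210.TF.Need Claimed.Agent.R210.TF.Basic Claimed.Agent.R210.TF.BasicB Claimed.Agent.R210.TF.BasicC

variable {X : Type*} [MetricSpace X] [MeasurableSpace X] [BorelSpace X] [ProperSpace X]
variable {m : Measure X} {K N : ℝ}

theorem tf_test_wg_bdd (hS : Std m K N) {g : X → ℝ} (hg : IsTestFunction m g) :
    ∃ L : ℝ, 0 ≤ L ∧ ∀ᵐ x ∂m, weakGradient m g x ≤ L := by
  obtain ⟨L, hL⟩ := hg.2.2.1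
  exact ⟨L, L.2, tf_need_lip_wg_le hS hL⟩

theorem tf_test_gamma_nonneg (hS : Std m K N) {g : X → ℝ} (hg : IsTestFunction m g) :
    ∀ᵐ x ∂m, 0 ≤ gamma m g g x := by
  filter_upwards [tf_need_gamma_self hS (tf_test_sobolev hg).2.1] with x hx
  rw [hx]
  exact sq_nonneg _

theorem tf_test_gamma_bdd (hS : Std m K N) {g : X → ℝ} (hg : IsTestFunction m g) :
    ∃ B : ℝ, 0 ≤ B ∧ AEBdd m (gamma m g g) B := by
  obtain ⟨L, hL0, hL⟩ := tf_test_wg_bdd hS hg
  refine ⟨L ^ 2, sq_nonneg _, ?_⟩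
  filter_upwards [tf_need_gamma_self hS (tf_test_sobolev hg).2.1, hL, tf_need_wg_nonneg hS g]
    with x hx h1 h2
  rw [hx, abs_of_nonneg (sq_nonneg _)]
  exact pow_le_pow_left₀ h2 h1 2

theorem tf_test_gamma_memLp (hS : Std m K N) {g : X → ℝ} (hg : IsTestFunction m g) :
    MemLp (gamma m g g) 2 m := by
  obtain ⟨L, _, hL⟩ := tf_test_wg_bdd hS hg
  exact tf_gamma_memLp hS (tf_test_sobolev hg).2.1 hL (tf_test_sobolev hg)

theorem tf_test_gamma_lap_memLp (hS : Std m K N) {g : X → ℝ} (hg : IsTestFunction m g) :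
    MemLp (gamma m g (laplacian m g)) 2 m := by
  obtain ⟨L, _, hL⟩ := tf_test_wg_bdd hS hg
  exact tf_gamma_memLp hS (tf_test_sobolev hg).2.1 hL hg.2.2.2

theorem tf_test_lipB {g : X → ℝ} (hg : IsTestFunction m g) : LipB g := ⟨hg.2.2.1, hg.2.1⟩

end Claimed.Agent.R210.TF.TestBasics
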