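/-
Row 210 (S0432), layer TF (architect helper562).  Leaf `R210 TF SavareStep`: the key estimate of Savare, Lemma 3.2.
Proofs on paper: `git show origin/helper562:docs/R210_TF.md`; contract: `git show origin/helper928:docs/R210_wave2.md` (section TF).
-/
import Claimed.Agent.R210.TF.Bochner
import Claimed.Agent.R210.TF.TestBasics
import Claimed.Agent.R210.TF.L2Lim

set_option autoImplicit false
set_option linter.unusedSectionVars false

open Claims.C0366 Claims.C0366.WeakHessian
open Set Filter MeasureTheory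
open scoped ENNReal NNReal Topology

namespace Claimed.Agent.R210.TF.SavareStep

open Claimed.Agent.R210.Defs Claimed.Agent.R210.Defs2 Claimed.Agent.R210.TF.Need Claimed.Agent.R210.TF.Basic Claimed.Agent.R210.TF.BasicA Claimed.Agent.R210.TF.BasicB Claimed.Agent.R210.TF.BochnerL Claimed.Agent.R210.TF.WeakStar Claimed.Agent.R210.TF.BochnerR Claimed.Agent.R210.TF.Bochner Claimed.Agent.R210.TF.BasicC Claimed.Agent.R210.TF.TestBasics Claimed.Agent.R210.TF.L2Lim

variable {X : Type*} [MetricSpace X] [MeasurableSpace X] [BorelSpace X] [ProperSpace X]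
variable {m : Measure X} {K N : ℝ}

/-- `u = Γ(g)`, `h = resF δ u` (`≥ 0`, bounded, `Δ h = (h-u)/δ` bounded).  `tf_bochner` gives
`(1/δ) ∫ (u - h) u = - ∫ u Δ h ≤ ∫ ξ h ≤ ‖ξ‖ ‖h‖ ≤ ‖ξ‖ ‖u‖`, `ξ = -2 Γ(g,Δ g) - 2 K Γ(g)`. -/
theorem tf_savare_step (hS : Std m K N) {g : X → ℝ} (hg : IsTestFunction m g) {δ : ℝ}
    (hδ : 0 < δ) :
    (1 / δ) * ∫ x, (gamma m g g x - resF m δ (gamma m g g) x) * gamma m g g x ∂m ≤
      Real.sqrt (∫ x, (-2 * gamma m g (laplacian m g) x - 2 * K * gamma m g g x) ^ 2 ∂m) *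
        Real.sqrt (∫ x, gamma m g g x ^ 2 ∂m) := by
  have hu2 : MemLp (gamma m g g) 2 m := tf_test_gamma_memLp hS hg
  have hΓ : MemLp (gamma m g (laplacian m g)) 2 m := tf_test_gamma_lap_memLp hS hg
  have hu0 : ∀ᵐ x ∂m, 0 ≤ gamma m g g x := tf_test_gamma_nonneg hS hg
  obtain ⟨Bu, hBu0, hBu⟩ := tf_test_gamma_bdd hS hg
  have hspec := tf_need_res_spec hS hu2 hδ
  have hdom : InLaplacianDomain m (resF m δ (gamma m g g)) := ⟨_, hspec⟩
  have hlap := tf_lap_ae_eq hS hspec
  have hh0 := tf_need_res_nonneg hS hu2 hδ hu0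
  have hhle := tf_need_res_le hS hu2 hδ hBu0 (hBu.mono fun x hx => le_trans (le_abs_self _) hx)
  have hh2 : MemLp (resF m δ (gamma m g g)) 2 m := hspec.1.1
  have hB : AEBdd m (resF m δ (gamma m g g)) (max Bu (2 * Bu / δ)) := by
    filter_upwards [hh0, hhle] with x h1 h2
    rw [abs_of_nonneg h1]
    exact le_trans h2 (le_max_left _ _)
  have hLB : AEBdd m (laplacian m (resF m δ (gamma m g g))) (max Bu (2 * Bu / δ)) := by
    filter_upwards [hh0, hhle, hlap, hBu, hu0] with x h1 h2 h3 h4 h5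
    rw [h3]
    refine le_trans ?_ (le_max_right _ _)
    rw [abs_div, abs_of_pos hδ]
    refine div_le_div_of_nonneg_right ?_ hδ.le
    rw [abs_of_nonneg h5] at h4
    rw [abs_le]
    constructor <;> linarith
  have hboch := tf_bochner hS (tf_test_dom hg) hg.2.2.2 hdom hh0 hB hLB
  have e1 : ∫ x, gamma m g g x * laplacian m (resF m δ (gamma m g g)) x ∂m
      = -((1 / δ) * ∫ x, (gamma m g g x - resF m δ (gamma m g g) x) * gamma m g g x ∂m) := by
    rw [← integral_const_mul, ← integral_neg]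
    refine integral_congr_ae (hlap.mono fun x hx => ?_)
    simp only [hx]
    field_simp
    ring
  have i1 := tf_mul_integrable hΓ hh2
  have i2 := tf_mul_integrable hu2 hh2
  have e2 : ∫ x, (-2 * gamma m g (laplacian m g) x - 2 * K * gamma m g g x)
        * resF m δ (gamma m g g) x ∂m
      = -2 * ∫ x, gamma m g (laplacian m g) x * resF m δ (gamma m g g) x ∂m
        - 2 * K * ∫ x, gamma m g g x * resF m δ (gamma m g g) x ∂m := by
    rw [← integral_const_mul, ← integral_const_mul, ← integral_sub (i1.const_mul _) (i2.const_mul _)]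
    refine integral_congr_ae (Filter.Eventually.of_forall fun x => ?_)
    simp only
    ring
  have hξ : MemLp (fun x => -2 * gamma m g (laplacian m g) x - 2 * K * gamma m g g x) 2 m :=
    (hΓ.const_mul (-2)).sub (hu2.const_mul (2 * K))
  have h3 := tf_int_mul_le _ _ hξ hh2
  have h4 : Real.sqrt (∫ x, resF m δ (gamma m g g) x ^ 2 ∂m) ≤ Real.sqrt (∫ x, gamma m g g x ^ 2 ∂m) :=
    Real.sqrt_le_sqrt (tf_need_res_contr hS hu2 hδ)
  have h5 := mul_le_mul_of_nonneg_left h4
    (Real.sqrt_nonneg (∫ x, (-2 * gamma m g (laplacian m g) x - 2 * K * gamma m g g x) ^ 2 ∂m))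
  have h6 := le_trans (le_abs_self _) h3
  linarith

end Claimed.Agent.R210.TF.SavareStep
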