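/-
Row 210 (S0432), layer TF (architect helper562).  TF2: `Γ(g) ∈ W^{1,2}` for test functions (glue).
Proofs on paper: `git show origin/helper562:docs/R210_TF.md`; contract: `git show origin/helper928:docs/R210_wave2.md` (section TF).
-/
import Claimed.Agent.R210.TF.SavareStep

set_option autoImplicit false
set_option linter.unusedSectionVars false

open Claims.C0366 Claims.C0366.WeakHessian
open Set Filter MeasureTheory
open scoped ENNReal NNReal Topology

namespace Claimed.Agent.R210.TF.Savare

open Claimed.Agent.R210.Defs Claimed.Agent.R210.Defs2 Claimed.Agent.R210.TF.Need Claimed.Agent.R210.TF.Basic Claimed.Agent.R210.TF.BasicA Claimed.Agent.R210.TF.BasicB Claimed.Agent.R210.TF.BochnerL Claimed.Agent.R210.TF.WeakStar Claimed.Agent.R210.TF.BochnerR Claimed.Agent.R210.TF.Bochner Claimed.Agent.R210.TF.BasicC Claimed.Agent.R210.TF.TestBasics Claimed.Agent.R210.TF.L2Lim Claimed.Agent.R210.TF.SavareStep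

variable {X : Type*} [MetricSpace X] [MeasurableSpace X] [BorelSpace X] [ProperSpace X]
variable {m : Measure X} {K N : ℝ}

/-- **TF2** (Savare, Lemma 3.2). -/
theorem tf_gamma_sobolev (hS : Std m K N) {g : X → ℝ} (hg : IsTestFunction m g) :
    Sobolev m (gamma m g g) :=
  tf_need_sobolev_of_res_bound hS (tf_test_gamma_memLp hS hg)
    (fun _ hδ _ => tf_savare_step hS hg hδ)

end Claimed.Agent.R210.TF.Savare
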