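/-
Row 210 (S0432), layer TF (architect helper562).  Leaf `R210 TF BochnerWRes`: Bochner with the weight `resF δ h`.
Proofs on paper: `git show origin/helper562:docs/R210_TF.md`; contract: `git show origin/helper928:docs/R210_wave2.md` (section TF).
-/
import Claimed.Agent.R210.TF.Savare

set_option autoImplicit false
set_option linter.unusedSectionVars false

open Claims.C0366 Claims.C0366.WeakHessian
open Set Filter MeasureTheory
open scoped ENNReal NNReal Topology

namespace Claimed.Agent.R210.TF.BochnerWRes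

open Claimed.Agent.R210.Defs Claimed.Agent.R210.Defs2 Claimed.Agent.R210.TF.Need Claimed.Agent.R210.TF.Basic Claimed.Agent.R210.TF.BasicA Claimed.Agent.R210.TF.BasicB Claimed.Agent.R210.TF.BochnerL Claimed.Agent.R210.TF.WeakStar Claimed.Agent.R210.TF.BochnerR Claimed.Agent.R210.TF.Bochner Claimed.Agent.R210.TF.BasicC Claimed.Agent.R210.TF.TestBasics Claimed.Agent.R210.TF.L2Lim Claimed.Agent.R210.TF.SavareStep Claimed.Agent.R210.TF.Savare

variable {X : Type*} [MetricSpace X] [MeasurableSpace X] [BorelSpace X] [ProperSpace X]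
variable {m : Measure X} {K N : ℝ}

/-- `tf_bochner` with `resF m δ h`; `∫ Γ(g) Δ h_δ = - ∫ Γ(h_δ, Γ(g))` because `Γ(g)` is Sobolev (`tf_gamma_sobolev`). -/
theorem tf_bochner_weight_res (hS : Std m K N) {g h : X → ℝ} (hg : IsTestFunction m g)
    (hh : MemLp h 2 m) {B : ℝ} (hB : AEBdd m h B) (h0 : ∀ᵐ x ∂m, 0 ≤ h x) {δ : ℝ} (hδ : 0 < δ) :
    K * ∫ x, gamma m g g x * resF m δ h x ∂m ≤
      -(1 / 2) * ∫ x, gamma m (gamma m g g) (resF m δ h) x ∂m
        - ∫ x, gamma m g (laplacian m g) x * resF m δ h x ∂m := by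
  have hspec := tf_need_res_spec hS hh hδ
  have hdom : InLaplacianDomain m (resF m δ h) := ⟨_, hspec⟩
  have hlap := tf_lap_ae_eq hS hspec
  have h0d := tf_need_res_nonneg hS hh hδ h0
  have hB0 : (0 : ℝ) ≤ max B 0 := le_max_right _ _
  have hle : ∀ᵐ x ∂m, h x ≤ max B 0 := by
    filter_upwards [hB] with x hx
    exact (le_abs_self _).trans (hx.trans (le_max_left _ _))
  have hled := tf_need_res_le hS hh hδ hB0 hle
  have hq : 0 ≤ max B 0 / δ := div_nonneg hB0 hδ.le
  have hB1 : AEBdd m (resF m δ h) (max B 0 + max B 0 / δ) := by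
    filter_upwards [h0d, hled] with x h1 h2
    rw [abs_of_nonneg h1]
    linarith
  have hB2 : AEBdd m (laplacian m (resF m δ h)) (max B 0 + max B 0 / δ) := by
    filter_upwards [h0d, hled, hlap, h0, hle] with x h1 h2 h3 h4 h5
    rw [h3, abs_div, abs_of_pos hδ]
    have : |resF m δ h x - h x| ≤ max B 0 := by
      rw [abs_le]
      constructor <;> linarith
    have := div_le_div_of_nonneg_right this hδ.le
    linarith
  have hb := tf_bochner hS hg.1 hg.2.2.2 hdom h0d hB1 hB2
  have hΓ := tf_gamma_sobolev hS hg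
  have hibp := (tf_lap_spec hdom).2.2 (gamma m g g) hΓ
  have hcomm : ∫ x, gamma m (resF m δ h) (gamma m g g) x ∂m
      = ∫ x, gamma m (gamma m g g) (resF m δ h) x ∂m :=
    integral_congr_ae (tf_need_gamma_comm hS (tf_dom_sobolev hdom).2.1 hΓ.2.1)
  have hmc : ∫ x, gamma m g g x * laplacian m (resF m δ h) x ∂m
      = ∫ x, laplacian m (resF m δ h) x * gamma m g g x ∂m :=
    integral_congr_ae (Eventually.of_forall fun x => mul_comm _ _)
  rw [hmc] at hb
  rw [hcomm] at hibp
  linarith

end Claimed.Agent.R210.TF.BochnerWRes
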