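/-
Row 210 (S0432), layer TF (architect helper562).  Leaf `R210 TF BochnerW`: TF3, Bochner with Sobolev weights (limit `δ → 0`).
Proofs on paper: `git show origin/helper562:docs/R210_TF.md`; contract: `git show origin/helper928:docs/R210_wave2.md` (section TF).
-/
import Claimed.Agent.R210.TF.BochnerWRes
import Claimed.Agent.R210.TF.BasicA

set_option autoImplicit false
set_option linter.unusedSectionVars false

open Claims.C0366 Claims.C0366.WeakHessian
open Set Filter MeasureTheory
open scoped ENNReal NNReal Topology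

namespace Claimed.Agent.R210.TF.BochnerW

open Claimed.Agent.R210.Defs Claimed.Agent.R210.Defs2 Claimed.Agent.R210.TF.Need Claimed.Agent.R210.TF.Basic Claimed.Agent.R210.TF.BasicA Claimed.Agent.R210.TF.BasicB Claimed.Agent.R210.TF.BochnerL Claimed.Agent.R210.TF.WeakStar Claimed.Agent.R210.TF.BochnerR Claimed.Agent.R210.TF.Bochner Claimed.Agent.R210.TF.BasicC Claimed.Agent.R210.TF.TestBasics Claimed.Agent.R210.TF.L2Lim Claimed.Agent.R210.TF.SavareStep Claimed.Agent.R210.TF.Savare Claimed.Agent.R210.TF.BochnerWRes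

variable {X : Type*} [MetricSpace X] [MeasurableSpace X] [BorelSpace X] [ProperSpace X]
variable {m : Measure X} {K N : ℝ}

/-- **TF3**: let `δ → 0+` in `tf_bochner_weight_res` (`tf_need_res_tendsto_L2`, `tf_need_res_tendsto_energy`,
`tf_tendsto_int_mul`, `tf_form_abs_le`, `tf_gamma_sub_right`). -/
theorem tf_bochner_weight (hS : Std m K N) {g h : X → ℝ} (hg : IsTestFunction m g)
    (hh : Sobolev m h) {B : ℝ} (hB : AEBdd m h B) (h0 : ∀ᵐ x ∂m, 0 ≤ h x) :
    K * ∫ x, gamma m g g x * h x ∂m ≤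
      -(1 / 2) * ∫ x, gamma m (gamma m g g) h x ∂m
        - ∫ x, gamma m g (laplacian m g) x * h x ∂m := by
  have hU : Sobolev m (gamma m g g) := tf_gamma_sobolev hS hg
  have hh2 : MemLp h 2 m := hh.1
  have hres : ∀ δ : ℝ, 0 < δ → Sobolev m (resF m δ h) := fun δ hδ => (tf_need_res_spec hS hh2 hδ).1
  have hev : ∀ᶠ δ : ℝ in 𝓝[>] 0, MemLp (resF m δ h) 2 m := by
    filter_upwards [self_mem_nhdsWithin] with δ hδ using (hres δ hδ).1
  have l1 : Tendsto (fun δ : ℝ => ∫ x, gamma m g g x * resF m δ h x ∂m) (𝓝[>] 0)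
      (𝓝 (∫ x, gamma m g g x * h x ∂m)) :=
    tf_tendsto_int_mul (tf_test_gamma_memLp hS hg) hh2 hev (tf_need_res_tendsto_L2 hS hh2)
  have l2 : Tendsto (fun δ : ℝ => ∫ x, gamma m g (laplacian m g) x * resF m δ h x ∂m) (𝓝[>] 0)
      (𝓝 (∫ x, gamma m g (laplacian m g) x * h x ∂m)) :=
    tf_tendsto_int_mul (tf_test_gamma_lap_memLp hS hg) hh2 hev (tf_need_res_tendsto_L2 hS hh2)
  have l3 : Tendsto (fun δ : ℝ => ∫ x, gamma m (gamma m g g) (resF m δ h) x ∂m) (𝓝[>] 0)
      (𝓝 (∫ x, gamma m (gamma m g g) h x ∂m)) := by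
    rw [tendsto_iff_dist_tendsto_zero]
    have hb : Tendsto (fun δ : ℝ => Real.sqrt (energy m (gamma m g g)) *
        Real.sqrt (energy m (fun x => resF m δ h x - h x))) (𝓝[>] 0) (𝓝 0) := by
      have := ((Real.continuous_sqrt.tendsto 0).comp (tf_need_res_tendsto_energy hS hh)).const_mul
        (Real.sqrt (energy m (gamma m g g)))
      simpa using this
    refine squeeze_zero' (Eventually.of_forall fun _ => dist_nonneg) ?_ hb
    filter_upwards [self_mem_nhdsWithin] with δ hδ
    have hsub : Sobolev m (fun x => resF m δ h x - h x) := by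
      have := tf_need_sobolev_add hS (hres δ hδ) (tf_need_sobolev_smul hS (-1) hh)
      have he : (fun x => resF m δ h x - h x) = fun x => resF m δ h x + (-1) * h x := by
        funext x; ring
      rw [he]; exact this
    have e : (∫ x, gamma m (gamma m g g) (resF m δ h) x ∂m) - ∫ x, gamma m (gamma m g g) h x ∂m
        = ∫ x, gamma m (gamma m g g) (fun y => resF m δ h y - h y) x ∂m := by
      rw [← integral_sub (tf_gamma_integrable hS hU (hres δ hδ)) (tf_gamma_integrable hS hU hh)]
      refine integral_congr_ae ?_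
      filter_upwards [tf_gamma_sub_right hS hU.2.1 (hres δ hδ).2.1 hh.2.1] with x hx
      rw [hx]
    rw [Real.dist_eq, e]
    exact tf_form_abs_le hS hU hsub
  refine le_of_tendsto_of_tendsto (l1.const_mul K) ((l3.const_mul (-(1 / 2))).sub l2) ?_
  filter_upwards [self_mem_nhdsWithin] with δ hδ
  exact tf_bochner_weight_res hS hg hh2 hB h0 hδ

end Claimed.Agent.R210.TF.BochnerW
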