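/-
Row 210 (S0432), layer TF (architect helper562).  Leaf `R210 TF Psi`: the Lipschitz cut-off `tf_psi` (pure metric space).
Proofs on paper: `git show origin/helper562:docs/R210_TF.md`; contract: `git show origin/helper928:docs/R210_wave2.md` (section TF).
-/
import Claimed.Agent.R210.TF.Basic

set_option autoImplicit false
set_option linter.unusedSectionVars false

open Claims.C0366 Claims.C0366.WeakHessian
open Set Filter MeasureTheory
open scoped ENNReal NNReal Topology

namespace Claimed.Agent.R210.TF.Psi

open Claimed.Agent.R210.Defs Claimed.Agent.R210.Defs2 Claimed.Agent.R210.TF.Need Claimed.Agent.R210.TF.Basic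

variable {X : Type*} [MetricSpace X] [MeasurableSpace X] [BorelSpace X] [ProperSpace X]
variable {m : Measure X} {K N : ℝ}

/-- `1` on `closedBall o (R+1)`, `0` outside `ball o (R+2)`, 1-Lipschitz. -/
noncomputable def tf_psi (o : X) (R : ℝ) (x : X) : ℝ := max 0 (min 1 (R + 2 - dist x o))

theorem tf_psi_lip (o : X) (R : ℝ) : LipschitzWith 1 (tf_psi o R) := by
  have h1 : LipschitzWith 1 (fun x : X => dist x o) := LipschitzWith.dist_left o
  have h2 : LipschitzWith 1 (fun x : X => R + 2 - dist x o) :=
    LipschitzWith.of_dist_le_mul fun x y => by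
      rw [dist_sub_left]
      exact h1.dist_le_mul x y
  exact (h2.const_min 1).const_max 0

theorem tf_psi_mem (o : X) (R : ℝ) (x : X) : 0 ≤ tf_psi o R x ∧ tf_psi o R x ≤ 1 :=
  ⟨le_max_left _ _, max_le zero_le_one (min_le_left _ _)⟩

theorem tf_psi_one {o : X} {R : ℝ} {x : X} (h : dist x o ≤ R + 1) : tf_psi o R x = 1 := by
  unfold tf_psi
  rw [min_eq_left (by linarith), max_eq_right zero_le_one]

theorem tf_psi_zero {o : X} {R : ℝ} {x : X} (h : R + 2 ≤ dist x o) : tf_psi o R x = 0 := by
  unfold tf_psi
  exact max_eq_left ((min_le_right _ _).trans (by linarith))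

theorem tf_psi_lipC (o : X) (R : ℝ) : LipC (tf_psi o R) := by
  refine ⟨⟨1, tf_psi_lip o R⟩, HasCompactSupport.intro (isCompact_closedBall o (R + 2)) fun x hx => ?_⟩
  rw [Metric.mem_closedBall, not_le] at hx
  exact tf_psi_zero hx.le

end Claimed.Agent.R210.TF.Psi
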