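/-
Row 210 (S0432), layer TF (architect helper562).  TF4: the Lipschitz representative of the resolvent (definition and first properties, proved).
Proofs on paper: `git show origin/helper562:docs/R210_TF.md`; contract: `git show origin/helper928:docs/R210_wave2.md` (section TF).
-/
import Claimed.Agent.R210.TF.BasicD
import Claimed.Agent.R210.TF.TestBasics

set_option autoImplicit false
set_option linter.unusedSectionVars false

open Claims.C0366 Claims.C0366.WeakHessian
open Set Filter MeasureTheory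
open scoped ENNReal NNReal Topology

namespace Claimed.Agent.R210.TF.Res

open Claimed.Agent.R210.Defs Claimed.Agent.R210.Defs2 Claimed.Agent.R210.TF.Need Claimed.Agent.R210.TF.Basic Claimed.Agent.R210.TF.BasicD Claimed.Agent.R210.TF.BasicB Claimed.Agent.R210.TF.BasicC Claimed.Agent.R210.TF.TestBasics

variable {X : Type*} [MetricSpace X] [MeasurableSpace X] [BorelSpace X] [ProperSpace X]
variable {m : Measure X} {K N : ℝ}

open scoped Classical in
/-- the Lipschitz representative of `resF m δ f` (`0` if there is none). -/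
noncomputable def tf_res (m : Measure X) (δ : ℝ) (f : X → ℝ) : X → ℝ :=
  if h : ∃ g : X → ℝ, GloballyLipschitz g ∧ g =ᵐ[m] resF m δ f then Classical.choose h else 0

theorem tf_res_exists (hS : Std m K N) {f : X → ℝ} (hf : MemLp f 2 m) {B : ℝ} (hB : AEBdd m f B)
    {δ : ℝ} (hδ : 0 < δ) (hδ1 : δ ≤ 1) :
    ∃ g : X → ℝ, GloballyLipschitz g ∧ g =ᵐ[m] resF m δ f := by
  obtain ⟨C, hC⟩ := tf_need_be5 hS
  have hB' : AEBdd m f (B.toNNReal : ℝ≥0) := by
    filter_upwards [hB] with x hx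
    exact hx.trans (Real.le_coe_toNNReal B)
  obtain ⟨g, hg, hge⟩ := hC f B.toNNReal δ hf hB' hδ hδ1
  exact ⟨g, ⟨_, hg⟩, hge⟩

theorem tf_res_lip (hS : Std m K N) {f : X → ℝ} (hf : MemLp f 2 m) {B : ℝ} (hB : AEBdd m f B)
    {δ : ℝ} (hδ : 0 < δ) (hδ1 : δ ≤ 1) : GloballyLipschitz (tf_res m δ f) := by
  have h := tf_res_exists hS hf hB hδ hδ1
  unfold tf_res
  rw [dif_pos h]
  exact (Classical.choose_spec h).1

theorem tf_res_ae (hS : Std m K N) {f : X → ℝ} (hf : MemLp f 2 m) {B : ℝ} (hB : AEBdd m f B)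
    {δ : ℝ} (hδ : 0 < δ) (hδ1 : δ ≤ 1) : tf_res m δ f =ᵐ[m] resF m δ f := by
  have h := tf_res_exists hS hf hB hδ hδ1
  unfold tf_res
  rw [dif_pos h]
  exact (Classical.choose_spec h).2

theorem tf_res_continuous (hS : Std m K N) {f : X → ℝ} (hf : MemLp f 2 m) {B : ℝ}
    (hB : AEBdd m f B) {δ : ℝ} (hδ : 0 < δ) (hδ1 : δ ≤ 1) : Continuous (tf_res m δ f) := by
  obtain ⟨L, hL⟩ := tf_res_lip hS hf hB hδ hδ1
  exact hL.continuous

theorem tf_res_isLaplacian (hS : Std m K N) {f : X → ℝ} (hf : MemLp f 2 m) {B : ℝ}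
    (hB : AEBdd m f B) {δ : ℝ} (hδ : 0 < δ) (hδ1 : δ ≤ 1) :
    IsLaplacian m (tf_res m δ f) (fun x => (tf_res m δ f x - f x) / δ) := by
  have h := tf_res_ae hS hf hB hδ hδ1
  refine tf_need_isLaplacian_congr hS h.symm ?_ (tf_need_res_spec hS hf hδ)
  filter_upwards [h] with x hx
  rw [hx]

theorem tf_res_lap (hS : Std m K N) {f : X → ℝ} (hf : MemLp f 2 m) {B : ℝ}
    (hB : AEBdd m f B) {δ : ℝ} (hδ : 0 < δ) (hδ1 : δ ≤ 1) :
    laplacian m (tf_res m δ f) =ᵐ[m] fun x => (tf_res m δ f x - f x) / δ :=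
  tf_lap_ae_eq hS (tf_res_isLaplacian hS hf hB hδ hδ1)

end Claimed.Agent.R210.TF.Res
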