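/-
Row 210 (S0432), layer TF (architect helper562).  Leaf `R210 TF ResA`: uniform Lipschitz constant and pointwise bounds of `tf_res`.
Proofs on paper: `git show origin/helper562:docs/R210_TF.md`; contract: `git show origin/helper928:docs/R210_wave2.md` (section TF).
-/
import Claimed.Agent.R210.TF.Res

set_option autoImplicit false
set_option linter.unusedSectionVars false

open Claims.C0366 Claims.C0366.WeakHessian
open Set Filter MeasureTheory
open scoped ENNReal NNReal Topology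

namespace Claimed.Agent.R210.TF.ResA

open Claimed.Agent.R210.Defs Claimed.Agent.R210.Defs2 Claimed.Agent.R210.TF.Need Claimed.Agent.R210.TF.Basic Claimed.Agent.R210.TF.BasicD Claimed.Agent.R210.TF.BasicB Claimed.Agent.R210.TF.BasicC Claimed.Agent.R210.TF.TestBasics Claimed.Agent.R210.TF.Res

variable {X : Type*} [MetricSpace X] [MeasurableSpace X] [BorelSpace X] [ProperSpace X]
variable {m : Measure X} {K N : ℝ}

/-- uniform Lipschitz constant (the Lipschitz function of `tf_need_be5` equals `tf_res` by `tf_eq_of_ae_eq`). -/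
theorem tf_res_lipschitzWith (hS : Std m K N) : ∃ C : ℝ≥0, ∀ (f : X → ℝ) (B : ℝ≥0) (δ : ℝ),
    MemLp f 2 m → AEBdd m f B → 0 < δ → δ ≤ 1 →
      LipschitzWith (C * B / NNReal.sqrt δ.toNNReal) (tf_res m δ f) := by
  obtain ⟨C, hC⟩ := tf_need_be5 hS
  refine ⟨C, fun f B δ hf hB hδ hδ1 => ?_⟩
  obtain ⟨g, hg, hge⟩ := hC f B δ hf hB hδ hδ1
  have e : g = tf_res m δ f :=
    tf_eq_of_ae_eq hS hg.continuous (tf_res_continuous hS hf hB hδ hδ1)
      (hge.trans (tf_res_ae hS hf hB hδ hδ1).symm)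
  rw [← e]
  exact hg

/-- `-J_δ f = J_δ (-f)` a.e. -/
theorem tf_resF_neg (hS : Std m K N) {f : X → ℝ} (hf : MemLp f 2 m) {δ : ℝ} (hδ : 0 < δ) :
    (fun x => -1 * resF m δ f x) =ᵐ[m] resF m δ (fun x => -f x) := by
  refine tf_need_res_unique hS (L := fun x => -1 * ((resF m δ f x - f x) / δ)) hf.neg hδ
    (tf_need_isLaplacian_smul hS (-1) (tf_need_res_spec hS hf hδ)) (Eventually.of_forall fun x => ?_)
  show -1 * resF m δ f x - δ * (-1 * ((resF m δ f x - f x) / δ)) = -f x
  field_simp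
  ring

/-- a bound of a function on a nonempty space with a measure of full support is nonnegative. -/
theorem tf_aebdd_nonneg (hS : Std m K N) {f : X → ℝ} {B : ℝ} (hB : AEBdd m f B) (x : X) : 0 ≤ B := by
  by_contra hneg
  have h1 : ∀ᵐ y ∂m, False := by
    filter_upwards [hB] with y hy
    exact hneg ((abs_nonneg _).trans hy)
  have h2 : m univ = 0 := by
    have := ae_iff.1 h1
    simpa using this
  exact (hS.full univ isOpen_univ ⟨x, trivial⟩).ne' h2

theorem tf_res_abs_le (hS : Std m K N) {f : X → ℝ} (hf : MemLp f 2 m) {B : ℝ}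
    (hB : AEBdd m f B) {δ : ℝ} (hδ : 0 < δ) (hδ1 : δ ≤ 1) : ∀ x, |tf_res m δ f x| ≤ B := by
  intro x
  have hB0 : 0 ≤ B := tf_aebdd_nonneg hS hB x
  have hcont := tf_res_continuous hS hf hB hδ hδ1
  have hae := tf_res_ae hS hf hB hδ hδ1
  have hup : ∀ᵐ y ∂m, resF m δ f y ≤ B := by
    refine tf_need_res_le hS hf hδ hB0 ?_
    filter_upwards [hB] with y hy
    exact (le_abs_self _).trans hy
  have hlo : ∀ᵐ y ∂m, resF m δ (fun z => -f z) y ≤ B := by
    refine tf_need_res_le hS hf.neg hδ hB0 ?_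
    filter_upwards [hB] with y hy
    exact (neg_le_abs _).trans hy
  have h1 : ∀ y, tf_res m δ f y ≤ B := by
    refine tf_le_of_ae_le hS hcont continuous_const ?_
    filter_upwards [hae, hup] with y h1 h2
    rw [h1]
    exact h2
  have h2 : ∀ y, -B ≤ tf_res m δ f y := by
    refine tf_le_of_ae_le hS continuous_const hcont ?_
    filter_upwards [hae, hlo, tf_resF_neg hS hf hδ] with y h1 h2 h3
    rw [h1]
    rw [← h3] at h2
    linarith
  exact abs_le.2 ⟨h2 x, h1 x⟩

theorem tf_res_nonneg (hS : Std m K N) {f : X → ℝ} (hf : MemLp f 2 m) {B : ℝ}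
    (hB : AEBdd m f B) (h0 : ∀ᵐ x ∂m, 0 ≤ f x) {δ : ℝ} (hδ : 0 < δ) (hδ1 : δ ≤ 1) :
    ∀ x, 0 ≤ tf_res m δ f x := by
  refine tf_le_of_ae_le hS continuous_const (tf_res_continuous hS hf hB hδ hδ1) ?_
  filter_upwards [tf_res_ae hS hf hB hδ hδ1, tf_need_res_nonneg hS hf hδ h0] with y h1 h2
  rw [h1]
  exact h2

end Claimed.Agent.R210.TF.ResA
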