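/-
Row 210 (S0432), layer TF (architect helper562).  Leaf `R210 TF ResB`: TF4, `tf_res m δ f` is a test function for `f ∈ LipC`.
Proofs on paper: `git show origin/helper562:docs/R210_TF.md`; contract: `git show origin/helper928:docs/R210_wave2.md` (section TF).
-/
import Claimed.Agent.R210.TF.ResA

set_option autoImplicit false
set_option linter.unusedSectionVars false

open Claims.C0366 Claims.C0366.WeakHessian
open Set Filter MeasureTheory
open scoped ENNReal NNReal Topology

namespace Claimed.Agent.R210.TF.ResB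

open Claimed.Agent.R210.Defs Claimed.Agent.R210.Defs2 Claimed.Agent.R210.TF.Need Claimed.Agent.R210.TF.Basic Claimed.Agent.R210.TF.BasicD Claimed.Agent.R210.TF.BasicB Claimed.Agent.R210.TF.BasicC Claimed.Agent.R210.TF.TestBasics Claimed.Agent.R210.TF.Res Claimed.Agent.R210.TF.ResA

variable {X : Type*} [MetricSpace X] [MeasurableSpace X] [BorelSpace X] [ProperSpace X]
variable {m : Measure X} {K N : ℝ}

theorem tf_lipC_bdd {f : X → ℝ} (hf : LipC f) : ∃ B : ℝ, 0 ≤ B ∧ ∀ x, |f x| ≤ B := by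
  obtain ⟨L, hL⟩ := hf.1
  obtain ⟨C, hC⟩ := hf.2.exists_bound_of_continuous hL.continuous
  exact ⟨max C 0, le_max_right _ _, fun x => (hC x).trans (le_max_left _ _)⟩

/-- **TF4** -/
theorem tf_res_test (hS : Std m K N) {f : X → ℝ} (hf : LipC f) {δ : ℝ} (hδ : 0 < δ)
    (hδ1 : δ ≤ 1) : IsTestFunction m (tf_res m δ f) := by
  obtain ⟨B, _, hB⟩ := tf_lipC_bdd hf
  have hfS : Sobolev m f := tf_need_lipC_sobolev hS hf
  have hf2 : MemLp f 2 m := hfS.1
  have hBae : AEBdd m f B := Eventually.of_forall hB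
  have hdom : InLaplacianDomain m (tf_res m δ f) := ⟨_, tf_res_isLaplacian hS hf2 hBae hδ hδ1⟩
  refine ⟨hdom, ⟨B, tf_res_abs_le hS hf2 hBae hδ hδ1⟩, tf_res_lip hS hf2 hBae hδ hδ1, ?_⟩
  exact tf_sobolev_congr hS (tf_res_lap hS hf2 hBae hδ hδ1).symm
    (tf_sobolev_div hS (tf_sobolev_sub hS (tf_dom_sobolev hdom) hfS) δ)

end Claimed.Agent.R210.TF.ResB
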