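/-
Row 210 (S0432), layer TF (architect helper562).  Leaf `R210 TF Step`: a smooth step function (pure real analysis).
Proofs on paper: `git show origin/helper562:docs/R210_TF.md`; contract: `git show origin/helper928:docs/R210_wave2.md` (section TF).
-/
import Claimed.Agent.R210.TF.Basic

set_option autoImplicit false
set_option linter.unusedSectionVars false

open Claims.C0366 Claims.C0366.WeakHessian
open Set Filter MeasureTheory
open scoped ENNReal NNReal Topology

namespace Claimed.Agent.R210.TF.Step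

open Claimed.Agent.R210.Defs Claimed.Agent.R210.Defs2 Claimed.Agent.R210.TF.Need Claimed.Agent.R210.TF.Basic

variable {X : Type*} [MetricSpace X] [MeasurableSpace X] [BorelSpace X] [ProperSpace X]
variable {m : Measure X} {K N : ℝ}

/-- smooth, `0` on `(-∞,1/4]`, `1` on `[3/4,∞)`. -/
noncomputable def tf_step (z : ℝ) : ℝ := Real.smoothTransition (2 * z - 1 / 2)

theorem tf_step_contDiff : ContDiff ℝ ((⊤ : ℕ∞) : WithTop ℕ∞) tf_step := by
  unfold tf_step
  exact Real.smoothTransition.contDiff.comp (by fun_prop)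

theorem tf_step_zero {z : ℝ} (hz : z ≤ 1 / 4) : tf_step z = 0 := by
  unfold tf_step
  exact Real.smoothTransition.zero_of_nonpos (by linarith)

theorem tf_step_one {z : ℝ} (hz : 3 / 4 ≤ z) : tf_step z = 1 := by
  unfold tf_step
  exact Real.smoothTransition.one_of_one_le (by linarith)

theorem tf_step_mem (z : ℝ) : 0 ≤ tf_step z ∧ tf_step z ≤ 1 :=
  ⟨Real.smoothTransition.nonneg _, Real.smoothTransition.le_one _⟩

/-- near a point outside `[1/4,3/4]` the step function is constant. -/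
theorem tf_step_eventually_const {z : ℝ} (hz : z < 1 / 4 ∨ 3 / 4 < z) :
    ∃ c : ℝ, tf_step =ᶠ[𝓝 z] fun _ => c := by
  rcases hz with hz | hz
  · refine ⟨0, ?_⟩
    filter_upwards [Iio_mem_nhds hz] with y hy
    exact tf_step_zero (le_of_lt hy)
  · refine ⟨1, ?_⟩
    filter_upwards [Ioi_mem_nhds hz] with y hy
    exact tf_step_one (le_of_lt hy)

theorem tf_deriv_eventually_zero {g : ℝ → ℝ} {z c : ℝ} (h : g =ᶠ[𝓝 z] fun _ => c) :
    deriv g =ᶠ[𝓝 z] fun _ => (0 : ℝ) := by
  have h2 := h.eventuallyEq_nhds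
  filter_upwards [h2] with y hy
  rw [hy.deriv_eq]
  simp

theorem tf_step_deriv_zero {z : ℝ} (hz : z < 1 / 4 ∨ 3 / 4 < z) :
    deriv tf_step z = 0 ∧ deriv (deriv tf_step) z = 0 := by
  obtain ⟨c, hc⟩ := tf_step_eventually_const hz
  have h1 := tf_deriv_eventually_zero hc
  have h2 := tf_deriv_eventually_zero h1
  exact ⟨h1.self_of_nhds, h2.self_of_nhds⟩

theorem tf_step_deriv3_zero {z : ℝ} (hz : z < 1 / 4 ∨ 3 / 4 < z) :
    deriv (deriv (deriv tf_step)) z = 0 := by
  obtain ⟨c, hc⟩ := tf_step_eventually_const hz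
  have h1 := tf_deriv_eventually_zero hc
  have h2 := tf_deriv_eventually_zero h1
  have h3 := tf_deriv_eventually_zero h2
  exact h3.self_of_nhds

theorem tf_bdd_of_continuous {g : ℝ → ℝ} (hg : Continuous g)
    (h0 : ∀ z, (z < 1 / 4 ∨ 3 / 4 < z) → g z = 0) : ∃ C : ℝ≥0, ∀ z, |g z| ≤ C := by
  obtain ⟨C, hC⟩ := (isCompact_Icc (a := (1 / 4 : ℝ)) (b := 3 / 4)).exists_bound_of_continuousOn
    hg.continuousOn
  refine ⟨Real.toNNReal C, fun z => ?_⟩
  by_cases hz : z ∈ Icc (1 / 4 : ℝ) (3 / 4)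
  · have := hC z hz
    rw [Real.norm_eq_abs] at this
    exact this.trans (Real.le_coe_toNNReal C)
  · have hz' : z < 1 / 4 ∨ 3 / 4 < z := by
      by_contra hcon
      simp only [not_or, not_lt] at hcon
      exact hz ⟨hcon.1, hcon.2⟩
    rw [h0 z hz']
    simp

theorem tf_lipschitz_of_deriv_bdd {g : ℝ → ℝ} (hg : Differentiable ℝ g) {C : ℝ≥0}
    (hC : ∀ z, |deriv g z| ≤ C) : LipschitzWith C g := by
  refine lipschitzWith_of_nnnorm_deriv_le hg (fun z => ?_)
  have := hC z
  rw [← Real.norm_eq_abs] at this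
  exact_mod_cast this

/-- all derivatives are continuous and vanish outside `[1/4,3/4]`, hence are bounded. -/
theorem tf_step_bounds : ∃ M : ℝ≥0, LipschitzWith M tf_step ∧ LipschitzWith M (deriv tf_step) ∧
    LipschitzWith M (deriv (deriv tf_step)) ∧ (∀ z, |deriv tf_step z| ≤ M) ∧
    (∀ z, |deriv (deriv tf_step) z| ≤ M) := by
  have c0 := tf_step_contDiff
  obtain ⟨d0, c1⟩ := contDiff_infty_iff_deriv.1 c0
  obtain ⟨d1, c2⟩ := contDiff_infty_iff_deriv.1 c1
  obtain ⟨d2, c3⟩ := contDiff_infty_iff_deriv.1 c2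
  obtain ⟨C1, h1⟩ := tf_bdd_of_continuous c1.continuous (fun z hz => (tf_step_deriv_zero hz).1)
  obtain ⟨C2, h2⟩ := tf_bdd_of_continuous c2.continuous (fun z hz => (tf_step_deriv_zero hz).2)
  obtain ⟨C3, h3⟩ := tf_bdd_of_continuous c3.continuous (fun z hz => tf_step_deriv3_zero hz)
  have l1 : C1 ≤ max C1 (max C2 C3) := le_max_left _ _
  have l2 : C2 ≤ max C1 (max C2 C3) := (le_max_left _ _).trans (le_max_right _ _)
  have l3 : C3 ≤ max C1 (max C2 C3) := (le_max_right _ _).trans (le_max_right _ _)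
  refine ⟨max C1 (max C2 C3), ?_, ?_, ?_, ?_, ?_⟩
  · exact (tf_lipschitz_of_deriv_bdd d0 h1).weaken l1
  · exact (tf_lipschitz_of_deriv_bdd d1 h2).weaken l2
  · exact (tf_lipschitz_of_deriv_bdd d2 h3).weaken l3
  · intro z
    exact (h1 z).trans (by exact_mod_cast l1)
  · intro z
    exact (h2 z).trans (by exact_mod_cast l2)

end Claimed.Agent.R210.TF.Step
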