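/-
Row 210 (S0432), layer TF (architect helper562).  Leaf `R210 TF StepComp`: `tf_step ∘ u` is a test function.
Proofs on paper: `git show origin/helper562:docs/R210_TF.md`; contract: `git show origin/helper928:docs/R210_wave2.md` (section TF).
-/
import Claimed.Agent.R210.TF.Step
import Claimed.Agent.R210.TF.Savare

set_option autoImplicit false
set_option linter.unusedSectionVars false

open Claims.C0366 Claims.C0366.WeakHessian
open Set Filter MeasureTheory
open scoped ENNReal NNReal Topology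

namespace Claimed.Agent.R210.TF.StepComp

open Claimed.Agent.R210.Defs Claimed.Agent.R210.Defs2 Claimed.Agent.R210.TF.Need Claimed.Agent.R210.TF.Basic Claimed.Agent.R210.TF.Step Claimed.Agent.R210.TF.BasicA Claimed.Agent.R210.TF.BasicB Claimed.Agent.R210.TF.BochnerL Claimed.Agent.R210.TF.WeakStar Claimed.Agent.R210.TF.BochnerR Claimed.Agent.R210.TF.Bochner Claimed.Agent.R210.TF.BasicC Claimed.Agent.R210.TF.TestBasics Claimed.Agent.R210.TF.L2Lim Claimed.Agent.R210.TF.SavareStep Claimed.Agent.R210.TF.Savare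

variable {X : Type*} [MetricSpace X] [MeasurableSpace X] [BorelSpace X] [ProperSpace X]
variable {m : Measure X} {K N : ℝ}

theorem tf_step_comp_isLaplacian (hS : Std m K N) {u : X → ℝ} (hu : IsTestFunction m u) :
    IsLaplacian m (fun x => tf_step (u x))
      (fun x => deriv tf_step (u x) * laplacian m u x
        + deriv (deriv tf_step) (u x) * gamma m u u x) :=
  tf_need_lap_chain hS hu.1 hu.2.1 hu.2.2.1 (contDiff_infty.1 tf_step_contDiff 2)
    (tf_step_zero (by norm_num))

/-- the Laplacian is `LipB · Sobolev + LipB · Sobolev` (`tf_step_bounds`, `tf_gamma_sobolev`,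
`tf_need_sobolev_mul_lipB`, `tf_sobolev_congr`). -/
theorem tf_step_comp_test (hS : Std m K N) {u : X → ℝ} (hu : IsTestFunction m u) :
    IsTestFunction m (fun x => tf_step (u x)) := by
  obtain ⟨M, hL0, hL1, hL2, hB1, hB2⟩ := tf_step_bounds
  obtain ⟨Lu, hLu⟩ := hu.2.2.1
  have hlap := tf_step_comp_isLaplacian hS hu
  have h1 : LipB (fun x => deriv tf_step (u x)) :=
    ⟨⟨M * Lu, hL1.comp hLu⟩, ⟨M, fun x => hB1 (u x)⟩⟩
  have h2 : LipB (fun x => deriv (deriv tf_step) (u x)) :=
    ⟨⟨M * Lu, hL2.comp hLu⟩, ⟨M, fun x => hB2 (u x)⟩⟩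
  refine ⟨⟨_, hlap⟩, ⟨1, fun x => ?_⟩, ⟨M * Lu, hL0.comp hLu⟩, ?_⟩
  · have := tf_step_mem (u x)
    rw [abs_le]
    constructor <;> linarith [this.1, this.2]
  · have hs : Sobolev m (fun x => deriv tf_step (u x) * laplacian m u x
        + deriv (deriv tf_step) (u x) * gamma m u u x) :=
      tf_need_sobolev_add hS (tf_need_sobolev_mul_lipB hS hu.2.2.2 h1)
        (tf_need_sobolev_mul_lipB hS (tf_gamma_sobolev hS hu) h2)
    exact tf_sobolev_congr hS (tf_lap_ae_eq hS hlap).symm hs

end Claimed.Agent.R210.TF.StepComp
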