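/-
Row 210 (S0432), layer TF (architect helper562).  Leaf `R210 TF Cutoff`: TF5, good cut-off functions.
Proofs on paper: `git show origin/helper562:docs/R210_TF.md`; contract: `git show origin/helper928:docs/R210_wave2.md` (section TF).
-/
import Claimed.Agent.R210.TF.Barrier
import Claimed.Agent.R210.TF.StepComp
import Claimed.Agent.R210.TF.Psi
import Claimed.Agent.R210.TF.ResB

set_option autoImplicit false
set_option linter.unusedSectionVars false

open Claims.C0366 Claims.C0366.WeakHessian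
open Set Filter MeasureTheory
open scoped ENNReal NNReal Topology

namespace Claimed.Agent.R210.TF.Cutoff

open Claimed.Agent.R210.Defs Claimed.Agent.R210.Defs2 Claimed.Agent.R210.TF.Need Claimed.Agent.R210.TF.Basic Claimed.Agent.R210.TF.BasicA Claimed.Agent.R210.TF.BasicB Claimed.Agent.R210.TF.BasicC Claimed.Agent.R210.TF.L2Lim Claimed.Agent.R210.TF.MaxP Claimed.Agent.R210.TF.Bar Claimed.Agent.R210.TF.BarEta Claimed.Agent.R210.TF.BarSuper Claimed.Agent.R210.TF.BasicD Claimed.Agent.R210.TF.Barrier Claimed.Agent.R210.TF.Step Claimed.Agent.R210.TF.BochnerL Claimed.Agent.R210.TF.WeakStar Claimed.Agent.R210.TF.BochnerR Claimed.Agent.R210.TF.Bochner Claimed.Agent.R210.TF.TestBasics Claimed.Agent.R210.TF.SavareStep Claimed.Agent.R210.TF.Savare Claimed.Agent.R210.TF.StepComp Claimed.Agent.R210.TF.Psi Claimed.Agent.R210.TF.Res Claimed.Agent.R210.TF.ResA Claimed.Agent.R210.TF.ResB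

variable {X : Type*} [MetricSpace X] [MeasurableSpace X] [BorelSpace X] [ProperSpace X]
variable {m : Measure X} {K N : ℝ}

/-- **TF5**.  `δ₀ ≤ 1` with `C_bar √δ₀ ≤ 1/8`, `u = tf_res m δ₀ (tf_psi o R)`, `χ = tf_step ∘ u`.
`|u - ψ| ≤ 1/8` (`tf_barrier_abs`, `tf_res_isLaplacian`), so `u ≥ 7/8` where `ψ = 1`, `u ≤ 1/8` where `ψ = 0`.
`χ` is a test function (`tf_res_test`, `tf_step_comp_test`); `Δχ = φ'(u)(u-ψ)/δ₀ + φ''(u)Γ(u)`; Lipschitz constant of `u` uniform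
(`tf_res_lipschitzWith` with `B = 1`). -/
theorem tf_cutoff (hS : Std m K N) : ∃ C : ℝ≥0, ∀ (o : X) (R : ℝ), ∃ χ : X → ℝ,
    TestC m χ ∧ (∀ x, 0 ≤ χ x ∧ χ x ≤ 1) ∧ (∀ x, dist x o ≤ R + 1 → χ x = 1) ∧
    (∀ x, R + 2 ≤ dist x o → χ x = 0) ∧ LipschitzWith C χ ∧
    (∀ᵐ x ∂m, |laplacian m χ x| ≤ C) ∧ (∀ᵐ x ∂m, dist x o ≤ R + 1 → laplacian m χ x = 0) := by
  obtain ⟨Cb, hCb0, hCb⟩ := tf_barrier_abs hS
  obtain ⟨CL, hCL⟩ := tf_res_lipschitzWith hS
  obtain ⟨M, hM1, _, _, hM4, hM5⟩ := tf_step_bounds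
  obtain ⟨δ₀, hδ, hδ1, hsmall⟩ : ∃ δ₀ : ℝ, 0 < δ₀ ∧ δ₀ ≤ 1 ∧ Cb * Real.sqrt δ₀ ≤ 1 / 8 := by
    have hp : 0 < 8 * Cb + 1 := by linarith
    refine ⟨min 1 (1 / (8 * Cb + 1) ^ 2), lt_min one_pos (by positivity), min_le_left _ _, ?_⟩
    have h1 : Real.sqrt (min 1 (1 / (8 * Cb + 1) ^ 2)) ≤ 1 / (8 * Cb + 1) := by
      rw [Real.sqrt_le_iff]
      refine ⟨by positivity, (min_le_right _ _).trans (le_of_eq ?_)⟩
      rw [div_pow, one_pow]
    calc Cb * Real.sqrt (min 1 (1 / (8 * Cb + 1) ^ 2)) ≤ Cb * (1 / (8 * Cb + 1)) :=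
          mul_le_mul_of_nonneg_left h1 hCb0
      _ ≤ 1 / 8 := by
          rw [mul_one_div, div_le_div_iff₀ hp (by norm_num)]
          linarith
  set L0 : ℝ≥0 := CL * 1 / NNReal.sqrt δ₀.toNNReal with hL0
  have hδn : ((δ₀.toNNReal : ℝ≥0) : ℝ) = δ₀ := Real.coe_toNNReal _ hδ.le
  refine ⟨M * L0 + M * (1 / 8) / δ₀.toNNReal + M * L0 ^ 2, fun o R => ?_⟩
  have hCcoe : ((M * L0 + M * (1 / 8) / δ₀.toNNReal + M * L0 ^ 2 : ℝ≥0) : ℝ)
      = (M : ℝ) * L0 + M * (1 / 8) / δ₀ + M * (L0 : ℝ) ^ 2 := by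
    push_cast
    rw [hδn]
  have hψC : LipC (tf_psi o R) := tf_psi_lipC o R
  have hψ2 : MemLp (tf_psi o R) 2 m := (tf_need_lipC_sobolev hS hψC).1
  have hψabs : ∀ x, |tf_psi o R x| ≤ 1 := fun x => by
    rw [abs_of_nonneg (tf_psi_mem o R x).1]
    exact (tf_psi_mem o R x).2
  have hψB : AEBdd m (tf_psi o R) 1 := Eventually.of_forall hψabs
  have hψB' : AEBdd m (tf_psi o R) ((1 : ℝ≥0) : ℝ) := by
    rw [NNReal.coe_one]
    exact hψB
  set u : X → ℝ := tf_res m δ₀ (tf_psi o R) with hu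
  have hu_test : IsTestFunction m u := tf_res_test hS hψC hδ hδ1
  have hu_lap : IsLaplacian m u (fun x => (u x - tf_psi o R x) / δ₀) :=
    tf_res_isLaplacian hS hψ2 hψB hδ hδ1
  have hu_lip : LipschitzWith L0 u := hCL (tf_psi o R) 1 δ₀ hψ2 hψB' hδ hδ1
  have hu_bdd : BoundedFunction u := ⟨1, tf_res_abs_le hS hψ2 hψB hδ hδ1⟩
  have habs : ∀ x, |u x - tf_psi o R x| ≤ 1 / 8 := fun x =>
    (hCb (tf_psi o R) u δ₀ (tf_psi_lip o R) ⟨L0, hu_lip⟩ hu_bdd hδ hδ1 hu_lap x).trans hsmall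
  have hbig : ∀ x, dist x o ≤ R + 1 → 7 / 8 ≤ u x := by
    intro x hx
    have h1 := (abs_le.1 (habs x)).1
    rw [tf_psi_one hx] at h1
    linarith
  have hlow : ∀ x, R + 2 ≤ dist x o → u x ≤ 1 / 8 := by
    intro x hx
    have h1 := (abs_le.1 (habs x)).2
    rw [tf_psi_zero hx] at h1
    linarith
  have hzero : ∀ x, R + 2 ≤ dist x o → tf_step (u x) = 0 := fun x hx =>
    tf_step_zero ((hlow x hx).trans (by norm_num))
  have hχlap := tf_lap_ae_eq hS (tf_step_comp_isLaplacian hS hu_test)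
  have hul : laplacian m u =ᵐ[m] fun x => (u x - tf_psi o R x) / δ₀ :=
    tf_res_lap hS hψ2 hψB hδ hδ1
  refine ⟨fun x => tf_step (u x), ⟨tf_step_comp_test hS hu_test, ?_⟩, fun x => tf_step_mem (u x), ?_, hzero,
    ?_, ?_, ?_⟩
  · refine HasCompactSupport.intro (isCompact_closedBall o (R + 2)) fun x hx => hzero x ?_
    rw [Metric.mem_closedBall, not_le] at hx
    exact hx.le
  · intro x hx
    exact tf_step_one (le_trans (by norm_num) (hbig x hx))
  · refine (hM1.comp hu_lip).weaken ?_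
    rw [add_assoc]
    exact le_self_add
  · have hg := tf_need_gamma_self hS (tf_test_sobolev hu_test).2.1
    have hw := tf_need_lip_wg_le hS hu_lip
    have hw0 := tf_need_wg_nonneg hS u
    filter_upwards [hχlap, hul, hg, hw, hw0] with x h1 h2 h3 h4 h5
    rw [h1, h2, h3, hCcoe]
    have a1 : |deriv tf_step (u x) * ((u x - tf_psi o R x) / δ₀)| ≤ (M : ℝ) * (1 / 8) / δ₀ := by
      rw [abs_mul, abs_div, abs_of_pos hδ, mul_div_assoc]
      exact mul_le_mul (hM4 _) (div_le_div_of_nonneg_right (habs x) hδ.le) (by positivity) M.coe_nonneg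
    have a2 : |deriv (deriv tf_step) (u x) * weakGradient m u x ^ 2| ≤ (M : ℝ) * (L0 : ℝ) ^ 2 := by
      rw [abs_mul, abs_of_nonneg (sq_nonneg (weakGradient m u x))]
      exact mul_le_mul (hM5 _) (pow_le_pow_left₀ h5 h4 2) (sq_nonneg _) M.coe_nonneg
    have a3 : 0 ≤ (M : ℝ) * L0 := by positivity
    calc _ ≤ |deriv tf_step (u x) * ((u x - tf_psi o R x) / δ₀)|
          + |deriv (deriv tf_step) (u x) * weakGradient m u x ^ 2| := abs_add_le _ _
      _ ≤ _ := by linarith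
  · filter_upwards [hχlap] with x h1 hx
    have h2 := tf_step_deriv_zero (z := u x) (Or.inr (lt_of_lt_of_le (by norm_num) (hbig x hx)))
    rw [h1, h2.1, h2.2]
    ring

end Claimed.Agent.R210.TF.Cutoff
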