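/-
Row 210 (S0432), layer TF (architect helper562).  The graph distance on `D(Δ)`; leaf `R210 TF GDist`: quasi triangle inequality.
Proofs on paper: `git show origin/helper562:docs/R210_TF.md`; contract: `git show origin/helper928:docs/R210_wave2.md` (section TF).
-/
import Claimed.Agent.R210.TF.BasicA
import Claimed.Agent.R210.TF.BasicB
import Claimed.Agent.R210.TF.L2Lim

set_option autoImplicit false
set_option linter.unusedSectionVars false

open Claims.C0366 Claims.C0366.WeakHessian
open Set Filter MeasureTheory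
open scoped ENNReal NNReal Topology

namespace Claimed.Agent.R210.TF.GDist

open Claimed.Agent.R210.Defs Claimed.Agent.R210.Defs2 Claimed.Agent.R210.TF.Need Claimed.Agent.R210.TF.Basic Claimed.Agent.R210.TF.BasicA Claimed.Agent.R210.TF.BasicB Claimed.Agent.R210.TF.L2Lim

variable {X : Type*} [MetricSpace X] [MeasurableSpace X] [BorelSpace X] [ProperSpace X]
variable {m : Measure X} {K N : ℝ}

/-- squared graph distance `‖u-g‖² + energy (u-g) + ‖Δu-Δg‖²`. -/
noncomputable def tf_gdist (m : Measure X) (u g : X → ℝ) : ℝ :=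
  ∫ x, (u x - g x) ^ 2 ∂m + energy m (fun x => u x - g x)
    + ∫ x, (laplacian m u x - laplacian m g x) ^ 2 ∂m

theorem tf_gdist_nonneg (u g : X → ℝ) : 0 ≤ tf_gdist m u g := by
  unfold tf_gdist
  have h1 : 0 ≤ ∫ x, (u x - g x) ^ 2 ∂m := integral_nonneg fun _ => sq_nonneg _
  have h2 : 0 ≤ ∫ x, (laplacian m u x - laplacian m g x) ^ 2 ∂m :=
    integral_nonneg fun _ => sq_nonneg _
  have h3 := tf_energy_nonneg (m := m) (fun x => u x - g x)
  linarith

theorem tf_int_sq_add_le {p q : X → ℝ} (hp : MemLp p 2 m) (hq : MemLp q 2 m) :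
    ∫ x, (p x + q x) ^ 2 ∂m ≤ 2 * ∫ x, p x ^ 2 ∂m + 2 * ∫ x, q x ^ 2 ∂m := by
  rw [← integral_const_mul, ← integral_const_mul,
    ← integral_add (hp.integrable_sq.const_mul 2) (hq.integrable_sq.const_mul 2)]
  refine integral_mono (hp.add hq).integrable_sq
    ((hp.integrable_sq.const_mul 2).add (hq.integrable_sq.const_mul 2)) fun x => ?_
  show (p x + q x) ^ 2 ≤ 2 * p x ^ 2 + 2 * q x ^ 2
  nlinarith [sq_nonneg (p x - q x)]

theorem tf_int_sq_sub_le {a b c : X → ℝ} (ha : MemLp a 2 m) (hb : MemLp b 2 m) (hc : MemLp c 2 m) :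
    ∫ x, (a x - c x) ^ 2 ∂m ≤ 2 * ∫ x, (a x - b x) ^ 2 ∂m + 2 * ∫ x, (b x - c x) ^ 2 ∂m := by
  have h := tf_int_sq_add_le (ha.sub hb) (hb.sub hc)
  have e : (fun x => ((a - b) x + (b - c) x) ^ 2) = fun x => (a x - c x) ^ 2 := by
    funext x
    simp only [Pi.sub_apply]
    ring
  rw [e] at h
  exact h

theorem tf_energy_add_le (hS : Std m K N) {f g : X → ℝ} (hf : Sobolev m f) (hg : Sobolev m g) :
    energy m (fun x => f x + g x) ≤ 2 * energy m f + 2 * energy m g := by
  have hfg : Sobolev m (fun x => f x + g x) := tf_need_sobolev_add hS hf hg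
  unfold energy
  rw [← integral_const_mul, ← integral_const_mul,
    ← integral_add (hf.2.2.integrable_sq.const_mul 2) (hg.2.2.integrable_sq.const_mul 2)]
  refine integral_mono_ae hfg.2.2.integrable_sq
    ((hf.2.2.integrable_sq.const_mul 2).add (hg.2.2.integrable_sq.const_mul 2)) ?_
  have e : (fun y => f y + 1 * g y) = fun y => f y + g y := by
    funext y
    ring
  have hexp := tf_gamma_expand hS hf.2.1 hg.2.1 1
  rw [e] at hexp
  filter_upwards [hexp, tf_need_gamma_self hS hfg.2.1, tf_need_gamma_self hS hf.2.1,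
    tf_need_gamma_self hS hg.2.1, tf_need_gamma_cs hS hf.2.1 hg.2.1] with x h1 h2 h3 h4 h5
  show weakGradient m (fun x => f x + g x) x ^ 2 ≤
    2 * weakGradient m f x ^ 2 + 2 * weakGradient m g x ^ 2
  rw [← h2, h1, h3, h4]
  have h6 := (le_abs_self _).trans h5
  nlinarith [sq_nonneg (weakGradient m f x - weakGradient m g x)]

/-- `(a+b)² ≤ 2a² + 2b²` in each of the three terms (for the energy: `|D(f+g)|² ≤ 2|Df|² + 2|Dg|²` from
`tf_gamma_expand`/`tf_need_gamma_cs`). -/
theorem tf_gdist_triangle (hS : Std m K N) {a b c : X → ℝ} (ha : InLaplacianDomain m a)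
    (hb : InLaplacianDomain m b) (hc : InLaplacianDomain m c) :
    tf_gdist m a c ≤ 2 * tf_gdist m a b + 2 * tf_gdist m b c := by
  have sa := tf_dom_sobolev ha
  have sb := tf_dom_sobolev hb
  have sc := tf_dom_sobolev hc
  have h1 := tf_int_sq_sub_le sa.1 sb.1 sc.1
  have h2 := tf_int_sq_sub_le (tf_lap_memLp ha) (tf_lap_memLp hb) (tf_lap_memLp hc)
  have h3 := tf_energy_add_le hS (tf_sobolev_sub hS sa sb) (tf_sobolev_sub hS sb sc)
  have e : (fun x => a x - b x + (b x - c x)) = fun x => a x - c x := by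
    funext x
    ring
  rw [e] at h3
  unfold tf_gdist
  linarith

end Claimed.Agent.R210.TF.GDist
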