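/-
Row 210 (S0432), layer TF (architect helper562).  Leaf `R210 TF TestAlg`: test functions form a vector space; polarised TF2.
Proofs on paper: `git show origin/helper562:docs/R210_TF.md`; contract: `git show origin/helper928:docs/R210_wave2.md` (section TF).
-/
import Claimed.Agent.R210.TF.Savare

set_option autoImplicit false
set_option linter.unusedSectionVars false

open Claims.C0366 Claims.C0366.WeakHessian
open Set Filter MeasureTheory
open scoped ENNReal NNReal Topology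

namespace Claimed.Agent.R210.TF.TestAlg

open Claimed.Agent.R210.Defs Claimed.Agent.R210.Defs2 Claimed.Agent.R210.TF.Need Claimed.Agent.R210.TF.Basic Claimed.Agent.R210.TF.BasicA Claimed.Agent.R210.TF.BasicB Claimed.Agent.R210.TF.BochnerL Claimed.Agent.R210.TF.WeakStar Claimed.Agent.R210.TF.BochnerR Claimed.Agent.R210.TF.Bochner Claimed.Agent.R210.TF.BasicC Claimed.Agent.R210.TF.TestBasics Claimed.Agent.R210.TF.L2Lim Claimed.Agent.R210.TF.SavareStep Claimed.Agent.R210.TF.Savare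

variable {X : Type*} [MetricSpace X] [MeasurableSpace X] [BorelSpace X] [ProperSpace X]
variable {m : Measure X} {K N : ℝ}

theorem tf_test_add (hS : Std m K N) {g₁ g₂ : X → ℝ} (h₁ : IsTestFunction m g₁)
    (h₂ : IsTestFunction m g₂) : IsTestFunction m (fun x => g₁ x + g₂ x) := by
  have hL := tf_need_isLaplacian_add hS (tf_lap_spec h₁.1) (tf_lap_spec h₂.1)
  obtain ⟨B₁, hB₁⟩ := h₁.2.1
  obtain ⟨B₂, hB₂⟩ := h₂.2.1
  obtain ⟨L₁, hL₁⟩ := h₁.2.2.1
  obtain ⟨L₂, hL₂⟩ := h₂.2.2.1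
  refine ⟨⟨_, hL⟩, ⟨B₁ + B₂, fun x => (abs_add_le _ _).trans (add_le_add (hB₁ x) (hB₂ x))⟩,
    ⟨L₁ + L₂, hL₁.add hL₂⟩, ?_⟩
  exact tf_sobolev_congr hS (tf_lap_ae_eq hS hL).symm (tf_need_sobolev_add hS h₁.2.2.2 h₂.2.2.2)

theorem tf_test_smul (hS : Std m K N) (c : ℝ) {g : X → ℝ} (hg : IsTestFunction m g) :
    IsTestFunction m (fun x => c * g x) := by
  have hL := tf_need_isLaplacian_smul hS c (tf_lap_spec hg.1)
  obtain ⟨B, hB⟩ := hg.2.1
  obtain ⟨L, hLip⟩ := hg.2.2.1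
  refine ⟨⟨_, hL⟩, ⟨|c| * B, fun x => by
    rw [abs_mul]; exact mul_le_mul_of_nonneg_left (hB x) (abs_nonneg c)⟩, ⟨‖c‖₊ * L, ?_⟩, ?_⟩
  · refine LipschitzWith.of_dist_le_mul (fun x y => ?_)
    have := hLip.dist_le_mul x y
    rw [Real.dist_eq] at this ⊢
    rw [← mul_sub, abs_mul, NNReal.coe_mul, coe_nnnorm, Real.norm_eq_abs, mul_assoc]
    exact mul_le_mul_of_nonneg_left this (abs_nonneg c)
  · exact tf_sobolev_congr hS (tf_lap_ae_eq hS hL).symm (tf_need_sobolev_smul hS c hg.2.2.2)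

theorem tf_test_sub (hS : Std m K N) {g₁ g₂ : X → ℝ} (h₁ : IsTestFunction m g₁)
    (h₂ : IsTestFunction m g₂) : IsTestFunction m (fun x => g₁ x - g₂ x) := by
  have h := tf_test_add hS h₁ (tf_test_smul hS (-1) h₂)
  have e : (fun x => g₁ x + -1 * g₂ x) = fun x => g₁ x - g₂ x := by
    funext x; ring
  rwa [e] at h

/-- polarised **TF2**: by definition `gamma m g₁ g₂ = (|D(g₁+g₂)|² - |D(g₁-g₂)|²)/4`. -/
theorem tf_gamma_sobolev₂ (hS : Std m K N) {g₁ g₂ : X → ℝ} (h₁ : IsTestFunction m g₁)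
    (h₂ : IsTestFunction m g₂) : Sobolev m (gamma m g₁ g₂) := by
  have hp := tf_test_add hS h₁ h₂
  have hm := tf_test_sub hS h₁ h₂
  have sp := tf_gamma_sobolev hS hp
  have sm := tf_gamma_sobolev hS hm
  have s := tf_need_sobolev_smul hS (1 / 4)
    (tf_need_sobolev_add hS sp (tf_need_sobolev_smul hS (-1) sm))
  refine tf_sobolev_congr hS ?_ s
  filter_upwards [tf_need_gamma_self hS (tf_test_sobolev hp).2.1,
    tf_need_gamma_self hS (tf_test_sobolev hm).2.1] with x h1 h2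
  rw [h1, h2]
  unfold gamma
  ring

end Claimed.Agent.R210.TF.TestAlg
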