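/-
Row 210 (S0432), layer TF (architect helper562).  Leaf `R210 TF Prod`: TF6, products of test functions.
Proofs on paper: `git show origin/helper562:docs/R210_TF.md`; contract: `git show origin/helper928:docs/R210_wave2.md` (section TF).
-/
import Claimed.Agent.R210.TF.TestAlg

set_option autoImplicit false
set_option linter.unusedSectionVars false

open Claims.C0366 Claims.C0366.WeakHessian
open Set Filter MeasureTheory
open scoped ENNReal NNReal Topology

namespace Claimed.Agent.R210.TF.Prod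

open Claimed.Agent.R210.Defs Claimed.Agent.R210.Defs2 Claimed.Agent.R210.TF.Need Claimed.Agent.R210.TF.Basic Claimed.Agent.R210.TF.BasicA Claimed.Agent.R210.TF.BasicB Claimed.Agent.R210.TF.BochnerL Claimed.Agent.R210.TF.WeakStar Claimed.Agent.R210.TF.BochnerR Claimed.Agent.R210.TF.Bochner Claimed.Agent.R210.TF.BasicC Claimed.Agent.R210.TF.TestBasics Claimed.Agent.R210.TF.L2Lim Claimed.Agent.R210.TF.SavareStep Claimed.Agent.R210.TF.Savare Claimed.Agent.R210.TF.TestAlg

variable {X : Type*} [MetricSpace X] [MeasurableSpace X] [BorelSpace X] [ProperSpace X]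
variable {m : Measure X} {K N : ℝ}

theorem tf_mul_isLaplacian (hS : Std m K N) {χ g : X → ℝ} (hχ : IsTestFunction m χ)
    (hg : IsTestFunction m g) :
    IsLaplacian m (fun x => χ x * g x)
      (fun x => χ x * laplacian m g x + g x * laplacian m χ x + 2 * gamma m χ g x) :=
  tf_need_lap_mul hS hχ.1 hχ.2.1 hχ.2.2.1 hg.1 hg.2.1 hg.2.2.1

theorem tf_mul_lap (hS : Std m K N) {χ g : X → ℝ} (hχ : IsTestFunction m χ)
    (hg : IsTestFunction m g) :
    laplacian m (fun x => χ x * g x) =ᵐ[m]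
      fun x => χ x * laplacian m g x + g x * laplacian m χ x + 2 * gamma m χ g x :=
  tf_lap_ae_eq hS (tf_mul_isLaplacian hS hχ hg)

/-- **TF6** (`tf_need_sobolev_mul_lipB`, `tf_gamma_sobolev₂`, `tf_sobolev_congr`; a product of bounded Lipschitz functions is
bounded Lipschitz). -/
theorem tf_mul_test (hS : Std m K N) {χ g : X → ℝ} (hχ : IsTestFunction m χ)
    (hg : IsTestFunction m g) : IsTestFunction m (fun x => χ x * g x) := by
  obtain ⟨Bχ, hBχ⟩ := hχ.2.1
  obtain ⟨Bg, hBg⟩ := hg.2.1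
  obtain ⟨Lχ, hLχ⟩ := hχ.2.2.1
  obtain ⟨Lg, hLg⟩ := hg.2.2.1
  refine ⟨⟨_, tf_mul_isLaplacian hS hχ hg⟩, ⟨Bχ * Bg, fun x => ?_⟩, ?_, ?_⟩
  · rw [abs_mul]
    exact mul_le_mul (hBχ x) (hBg x) (abs_nonneg _) ((abs_nonneg _).trans (hBχ x))
  · refine ⟨Bχ.toNNReal * Lg + Bg.toNNReal * Lχ, LipschitzWith.of_dist_le_mul fun x y => ?_⟩
    have h1 := hLχ.dist_le_mul x y
    have h2 := hLg.dist_le_mul x y
    rw [Real.dist_eq] at h1 h2 ⊢
    have e : χ x * g x - χ y * g y = χ x * (g x - g y) + g y * (χ x - χ y) := by ring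
    have hb1 : |χ x| ≤ (Bχ.toNNReal : ℝ) := (hBχ x).trans (Real.le_coe_toNNReal _)
    have hb2 : |g y| ≤ (Bg.toNNReal : ℝ) := (hBg y).trans (Real.le_coe_toNNReal _)
    calc |χ x * g x - χ y * g y| ≤ |χ x * (g x - g y)| + |g y * (χ x - χ y)| := by
          rw [e]; exact abs_add_le _ _
      _ = |χ x| * |g x - g y| + |g y| * |χ x - χ y| := by rw [abs_mul, abs_mul]
      _ ≤ (Bχ.toNNReal : ℝ) * (Lg * dist x y) + (Bg.toNNReal : ℝ) * (Lχ * dist x y) := by
          gcongr
      _ = ((Bχ.toNNReal * Lg + Bg.toNNReal * Lχ : ℝ≥0) : ℝ) * dist x y := by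
          push_cast; ring
  · have s1 : Sobolev m (fun x => χ x * laplacian m g x) :=
      tf_need_sobolev_mul_lipB hS hg.2.2.2 (tf_test_lipB hχ)
    have s2 : Sobolev m (fun x => g x * laplacian m χ x) :=
      tf_need_sobolev_mul_lipB hS hχ.2.2.2 (tf_test_lipB hg)
    have s3 : Sobolev m (fun x => 2 * gamma m χ g x) :=
      tf_need_sobolev_smul hS 2 (tf_gamma_sobolev₂ hS hχ hg)
    exact tf_sobolev_congr hS (tf_mul_lap hS hχ hg).symm
      (tf_need_sobolev_add hS (tf_need_sobolev_add hS s1 s2) s3)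

theorem tf_mul_testC (hS : Std m K N) {χ g : X → ℝ} (hχ : TestC m χ)
    (hg : IsTestFunction m g) : TestC m (fun x => χ x * g x) :=
  ⟨tf_mul_test hS hχ.1 hg, hχ.2.mul_right⟩

end Claimed.Agent.R210.TF.Prod
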