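/-
Row 210 (S0432), layer TF (architect helper562).  Leaf `R210 TF DensCut`: cutting off a test function is continuous in the graph norm.
Proofs on paper: `git show origin/helper562:docs/R210_TF.md`; contract: `git show origin/helper928:docs/R210_wave2.md` (section TF).
-/
import Claimed.Agent.R210.TF.GDist
import Claimed.Agent.R210.TF.Cutoff
import Claimed.Agent.R210.TF.Prod

set_option autoImplicit false
set_option linter.unusedSectionVars false

open Claims.C0366 Claims.C0366.WeakHessian
open Set Filter MeasureTheory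
open scoped ENNReal NNReal Topology

namespace Claimed.Agent.R210.TF.DensCut

open Claimed.Agent.R210.Defs Claimed.Agent.R210.Defs2 Claimed.Agent.R210.TF.Need Claimed.Agent.R210.TF.Basic Claimed.Agent.R210.TF.BasicA Claimed.Agent.R210.TF.BasicB Claimed.Agent.R210.TF.L2Lim Claimed.Agent.R210.TF.GDist Claimed.Agent.R210.TF.BasicC Claimed.Agent.R210.TF.MaxP Claimed.Agent.R210.TF.Bar Claimed.Agent.R210.TF.BarEta Claimed.Agent.R210.TF.BarSuper Claimed.Agent.R210.TF.BasicD Claimed.Agent.R210.TF.Barrier Claimed.Agent.R210.TF.Step Claimed.Agent.R210.TF.BochnerL Claimed.Agent.R210.TF.WeakStar Claimed.Agent.R210.TF.BochnerR Claimed.Agent.R210.TF.Bochner Claimed.Agent.R210.TF.TestBasics Claimed.Agent.R210.TF.SavareStep Claimed.Agent.R210.TF.Savare Claimed.Agent.R210.TF.StepComp Claimed.Agent.R210.TF.Psi Claimed.Agent.R210.TF.Res Claimed.Agent.R210.TF.ResA Claimed.Agent.R210.TF.ResB Claimed.Agent.R210.TF.Cutoff Claimed.Agent.R210.TF.TestAlg Claimed.Agent.R210.TF.Prod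

variable {X : Type*} [MetricSpace X] [MeasurableSpace X] [BorelSpace X] [ProperSpace X]
variable {m : Measure X} {K N : ℝ}

theorem tf_tail_tendsto (o : X) {F : X → ℝ} (hF : Integrable F m) :
    Tendsto (fun n : ℕ => ∫ x in {x | (n : ℝ) + 1 < dist x o}, F x ∂m) atTop (𝓝 0) := by
  have hanti : Antitone (fun n : ℕ => {x : X | (n : ℝ) + 1 < dist x o}) := by
    intro a b hab x hx
    have hab' : (a : ℝ) ≤ b := by exact_mod_cast hab
    have hx' : (b : ℝ) + 1 < dist x o := hx
    show (a : ℝ) + 1 < dist x o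
    linarith
  have h := tendsto_setIntegral_of_antitone (μ := m) (f := F)
    (s := fun n : ℕ => {x : X | (n : ℝ) + 1 < dist x o})
    (fun n => (isOpen_lt continuous_const (by fun_prop)).measurableSet) hanti
    ⟨0, hF.integrableOn⟩
  have hempty : (⋂ n : ℕ, {x : X | (n : ℝ) + 1 < dist x o}) = ∅ := by
    ext x
    simp only [mem_iInter, mem_empty_iff_false, iff_false, not_forall]
    obtain ⟨n, hn⟩ := exists_nat_ge (dist x o)
    refine ⟨n, fun hx => ?_⟩
    have hx' : (n : ℝ) + 1 < dist x o := hx
    linarith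
  rw [hempty] at h
  simpa using h

theorem tf_cut_bound (hS : Std m K N) {u χ : X → ℝ} (hu : IsTestFunction m u) (hχ : TestC m χ)
    {C : ℝ≥0} {T : Set X} (hT : MeasurableSet T) (h01 : ∀ x, 0 ≤ χ x ∧ χ x ≤ 1)
    (h1 : ∀ x, x ∉ T → χ x = 1) (hlip : LipschitzWith C χ)
    (hlapb : ∀ᵐ x ∂m, |laplacian m χ x| ≤ C)
    (hlap0 : ∀ᵐ x ∂m, x ∉ T → laplacian m χ x = 0) :
    tf_gdist m (fun x => χ x * u x) u ≤
      2 * ∫ x in T, (u x ^ 2 +
        (|laplacian m u x| + C * |u x| + 2 * C * weakGradient m u x) ^ 2) ∂m := by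
  set w : X → ℝ := fun x => χ x * u x with hw
  set G : X → ℝ := fun x => |laplacian m u x| + C * |u x| + 2 * C * weakGradient m u x with hGdef
  have hwT : IsTestFunction m w := (tf_mul_testC hS hχ hu).1
  have huS : Sobolev m u := tf_test_sobolev hu
  have hχS : Sobolev m χ := tf_test_sobolev hχ.1
  have hwS : Sobolev m w := tf_test_sobolev hwT
  have hlapw := tf_mul_lap hS hχ.1 hu
  have hG : MemLp G 2 m :=
    ((tf_lap_memLp hu.1).abs.add (huS.1.abs.const_mul (C : ℝ))).add
      (huS.2.2.const_mul (2 * (C : ℝ)))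
  have hG2 : Integrable (fun x => G x ^ 2) m := hG.integrable_sq
  have hu2 : Integrable (fun x => u x ^ 2) m := huS.1.integrable_sq
  -- the difference
  have hzS : Sobolev m (fun x => w x - u x) := tf_sobolev_sub hS hwS huS
  have hzL : IsLaplacian m (fun x => w x - u x) (fun x => laplacian m w x - laplacian m u x) := by
    have := tf_need_isLaplacian_add hS (tf_lap_spec hwT.1)
      (tf_need_isLaplacian_smul hS (-1) (tf_lap_spec hu.1))
    simpa [sub_eq_add_neg] using this
  -- bound 1
  have hb1 : ∀ x, (w x - u x) ^ 2 ≤ T.indicator (fun x => u x ^ 2) x := by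
    intro x
    by_cases hx : x ∈ T
    · rw [indicator_of_mem hx]
      have e : w x - u x = (χ x - 1) * u x := by simp only [hw]; ring
      rw [e, mul_pow]
      have h2 : (χ x - 1) ^ 2 ≤ 1 := by
        have := h01 x
        nlinarith [this.1, this.2]
      nlinarith [sq_nonneg (u x)]
    · rw [indicator_of_notMem hx]
      have e : w x - u x = 0 := by simp only [hw]; rw [h1 x hx]; ring
      rw [e]; simp
  -- bound 2
  have hb2 : ∀ᵐ x ∂m, (laplacian m w x - laplacian m u x) ^ 2 ≤
      T.indicator (fun x => G x ^ 2) x := by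
    filter_upwards [hlapw, hlapb, hlap0, tf_need_gamma_cs hS hχS.2.1 huS.2.1,
      tf_need_lip_wg_le hS hlip, tf_need_wg_eq_zero_of_eq_const hS hχS.2.1 1,
      tf_need_wg_nonneg hS u, tf_need_wg_nonneg hS χ] with x e1 e2 e3 e4 e5 e6 e7 e8
    by_cases hx : x ∈ T
    · rw [indicator_of_mem hx, e1]
      have e : χ x * laplacian m u x + u x * laplacian m χ x + 2 * gamma m χ u x
          - laplacian m u x
          = (χ x - 1) * laplacian m u x + u x * laplacian m χ x + 2 * gamma m χ u x := by ring
      rw [e]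
      apply sq_le_sq'
      · have a1 : |(χ x - 1) * laplacian m u x| ≤ |laplacian m u x| := by
          rw [abs_mul]
          have : |χ x - 1| ≤ 1 := by
            rw [abs_le]; constructor <;> linarith [(h01 x).1, (h01 x).2]
          nlinarith [abs_nonneg (laplacian m u x)]
        have a2 : |u x * laplacian m χ x| ≤ C * |u x| := by
          rw [abs_mul]
          nlinarith [abs_nonneg (u x)]
        have a3 : |gamma m χ u x| ≤ C * weakGradient m u x :=
          e4.trans (mul_le_mul_of_nonneg_right e5 e7)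
        have b1 := neg_abs_le ((χ x - 1) * laplacian m u x)
        have b2 := neg_abs_le (u x * laplacian m χ x)
        have b3 := neg_abs_le (gamma m χ u x)
        simp only [hGdef]
        linarith
      · have a1 : |(χ x - 1) * laplacian m u x| ≤ |laplacian m u x| := by
          rw [abs_mul]
          have : |χ x - 1| ≤ 1 := by
            rw [abs_le]; constructor <;> linarith [(h01 x).1, (h01 x).2]
          nlinarith [abs_nonneg (laplacian m u x)]
        have a2 : |u x * laplacian m χ x| ≤ C * |u x| := by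
          rw [abs_mul]
          nlinarith [abs_nonneg (u x)]
        have a3 : |gamma m χ u x| ≤ C * weakGradient m u x :=
          e4.trans (mul_le_mul_of_nonneg_right e5 e7)
        have b1 := le_abs_self ((χ x - 1) * laplacian m u x)
        have b2 := le_abs_self (u x * laplacian m χ x)
        have b3 := le_abs_self (gamma m χ u x)
        simp only [hGdef]
        linarith
    · rw [indicator_of_notMem hx, e1, h1 x hx, e3 hx]
      have g0 : gamma m χ u x = 0 := by
        have : |gamma m χ u x| ≤ 0 := by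
          rw [e6 (h1 x hx), zero_mul] at e4
          exact e4
        exact abs_eq_zero.1 (le_antisymm this (abs_nonneg _))
      rw [g0]
      simp
  -- integrals
  set A : ℝ := ∫ x, (w x - u x) ^ 2 ∂m with hA
  set B : ℝ := ∫ x, (laplacian m w x - laplacian m u x) ^ 2 ∂m with hB
  have hA0 : 0 ≤ A := integral_nonneg fun _ => sq_nonneg _
  have hB0 : 0 ≤ B := integral_nonneg fun _ => sq_nonneg _
  have hAle : A ≤ ∫ x in T, u x ^ 2 ∂m := by
    rw [← integral_indicator hT]
    exact integral_mono_of_nonneg (Eventually.of_forall fun _ => sq_nonneg _)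
      (hu2.indicator hT) (Eventually.of_forall hb1)
  have hBle : B ≤ ∫ x in T, G x ^ 2 ∂m := by
    rw [← integral_indicator hT]
    exact integral_mono_of_nonneg (Eventually.of_forall fun _ => sq_nonneg _)
      (hG2.indicator hT) hb2
  have hE : energy m (fun x => w x - u x) ≤ (A + B) / 2 := by
    rw [tf_energy_eq hS hzS.2.1, hzL.2.2 _ hzS]
    have h3 := tf_int_mul_le (m := m) _ _ hzL.2.1 hzS.1
    have h4 := neg_abs_le (∫ x, (laplacian m w x - laplacian m u x) * (w x - u x) ∂m)
    have h5 : Real.sqrt B * Real.sqrt A ≤ (A + B) / 2 := by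
      have s1 := Real.sq_sqrt hA0
      have s2 := Real.sq_sqrt hB0
      nlinarith [sq_nonneg (Real.sqrt B - Real.sqrt A)]
    linarith
  have hsum : ∫ x in T, (u x ^ 2 + G x ^ 2) ∂m = ∫ x in T, u x ^ 2 ∂m + ∫ x in T, G x ^ 2 ∂m :=
    integral_add hu2.integrableOn hG2.integrableOn
  rw [hsum]
  unfold tf_gdist
  linarith

/-- `χ_n` = cut-off of `tf_cutoff` with `R = n`.  `χ_n u - u = -(1-χ_n) u`, `|D((1-χ_n)u)| ≤ (1-χ_n)|Du| + C |u| 1_{d > n}`,
`Δ(χ_n u) - Δ u = -(1-χ_n) Δ u + u Δχ_n + 2 Γ(χ_n,u)`, all dominated by `C' (|u| + |Du| + |Δ u|) 1_{d(·,o) > n}`, whose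
`L²` norm tends to `0` (dominated convergence). -/
theorem tf_dense_cut (hS : Std m K N) {u : X → ℝ} (hu : IsTestFunction m u) {ε : ℝ}
    (hε : 0 < ε) : ∃ w : X → ℝ, TestC m w ∧ tf_gdist m w u < ε := by
  rcases isEmpty_or_nonempty X with hX | ⟨⟨o⟩⟩
  · refine ⟨u, ⟨hu, ?_⟩, ?_⟩
    · have : u = 0 := by
        funext x
        exact (hX.false x).elim
      rw [this]
      exact HasCompactSupport.zero
    · have hm : m = 0 := Measure.eq_zero_of_isEmpty m
      unfold tf_gdist energy
      rw [hm]
      simpa using hε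
  obtain ⟨C, hC⟩ := tf_cutoff hS
  have huS : Sobolev m u := tf_test_sobolev hu
  have hG : MemLp (fun x => |laplacian m u x| + C * |u x| + 2 * C * weakGradient m u x) 2 m :=
    ((tf_lap_memLp hu.1).abs.add (huS.1.abs.const_mul (C : ℝ))).add
      (huS.2.2.const_mul (2 * (C : ℝ)))
  have hF : Integrable (fun x => u x ^ 2 +
      (|laplacian m u x| + C * |u x| + 2 * C * weakGradient m u x) ^ 2) m :=
    huS.1.integrable_sq.add hG.integrable_sq
  have hlim := tf_tail_tendsto o hF
  have hev : ∀ᶠ n : ℕ in atTop, ∫ x in {x | (n : ℝ) + 1 < dist x o}, (u x ^ 2 +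
      (|laplacian m u x| + C * |u x| + 2 * C * weakGradient m u x) ^ 2) ∂m < ε / 2 :=
    hlim.eventually (gt_mem_nhds (by linarith))
  obtain ⟨n, hn⟩ := hev.exists
  obtain ⟨χ, hχ, h01, h1, _, hlip, hlapb, hlap0⟩ := hC o n
  refine ⟨fun x => χ x * u x, tf_mul_testC hS hχ hu, ?_⟩
  have hb := tf_cut_bound hS hu hχ (C := C) (T := {x | (n : ℝ) + 1 < dist x o})
    (isOpen_lt continuous_const (by fun_prop)).measurableSet h01
    (fun x hx => h1 x (not_lt.1 hx)) hlip hlapb
    (by
      filter_upwards [hlap0] with x hx hxT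
      exact hx (not_lt.1 hxT))
  linarith

end Claimed.Agent.R210.TF.DensCut
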