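/-
Row 210 (S0432), layer TF (architect helper562).  Leaf `R210 TF DensRes`: test functions are dense in `D(Δ)` for the graph norm.
Proofs on paper: `git show origin/helper562:docs/R210_TF.md`; contract: `git show origin/helper928:docs/R210_wave2.md` (section TF).
-/
import Claimed.Agent.R210.TF.GDist
import Claimed.Agent.R210.TF.ResB

set_option autoImplicit false
set_option linter.unusedSectionVars false

open Claims.C0366 Claims.C0366.WeakHessian
open Set Filter MeasureTheory
open scoped ENNReal NNReal Topology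

namespace Claimed.Agent.R210.TF.DensRes

open Claimed.Agent.R210.Defs Claimed.Agent.R210.Defs2 Claimed.Agent.R210.TF.Need Claimed.Agent.R210.TF.Basic Claimed.Agent.R210.TF.BasicA Claimed.Agent.R210.TF.BasicB Claimed.Agent.R210.TF.L2Lim Claimed.Agent.R210.TF.GDist Claimed.Agent.R210.TF.BasicD Claimed.Agent.R210.TF.BasicC Claimed.Agent.R210.TF.TestBasics Claimed.Agent.R210.TF.Res Claimed.Agent.R210.TF.ResA Claimed.Agent.R210.TF.ResB

variable {X : Type*} [MetricSpace X] [MeasurableSpace X] [BorelSpace X] [ProperSpace X]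
variable {m : Measure X} {K N : ℝ}

/-- `f = g - Δ g`, `f_n ∈ LipC → f` in `L²` (`tf_need_lipC_dense_L2`), `u_n = tf_res m 1 f_n`.  `w = u_n - g` satisfies
`w - Δ w = f_n - f`, hence `‖w‖² + 2 energy w + ‖Δ w‖² = ‖f_n - f‖²` (expand the square, `∫ w Δ w = - energy w`). -/
theorem tf_dense_test (hS : Std m K N) {g : X → ℝ} (hg : InLaplacianDomain m g) {ε : ℝ}
    (hε : 0 < ε) : ∃ u : X → ℝ, IsTestFunction m u ∧ tf_gdist m u g < ε := by
  have hLg : IsLaplacian m g (laplacian m g) := tf_lap_spec hg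
  have hg2 : MemLp g 2 m := hLg.1.1
  have hLg2 : MemLp (laplacian m g) 2 m := hLg.2.1
  have hf : MemLp (fun x => g x - laplacian m g x) 2 m := hg2.sub hLg2
  obtain ⟨fs, hfs, hlim⟩ := tf_need_lipC_dense_L2 hS hf
  obtain ⟨n, hn⟩ := ((tendsto_order.1 hlim).2 ε hε).exists
  have hfn2 : MemLp (fs n) 2 m := (tf_need_lipC_sobolev hS (hfs n)).1
  obtain ⟨B, -, hB⟩ := tf_lipC_bdd (hfs n)
  have hBB : AEBdd m (fs n) B := Eventually.of_forall hB
  have hu : IsLaplacian m (tf_res m 1 (fs n)) (fun x => (tf_res m 1 (fs n) x - fs n x) / 1) :=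
    tf_res_isLaplacian hS hfn2 hBB one_pos le_rfl
  refine ⟨tf_res m 1 (fs n), tf_res_test hS (hfs n) one_pos le_rfl, ?_⟩
  set u : X → ℝ := tf_res m 1 (fs n) with hudef
  have hw0 := tf_need_isLaplacian_add hS hu (tf_need_isLaplacian_smul hS (-1) hLg)
  have e1 : (fun x => u x + -1 * g x) = fun x => u x - g x := by
    funext x; ring
  rw [e1] at hw0
  set w : X → ℝ := fun x => u x - g x with hwdef
  set Lw : X → ℝ := fun x => (u x - fs n x) / 1 + -1 * laplacian m g x with hLwdef
  have hw2 : MemLp w 2 m := hw0.1.1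
  have hLw2 : MemLp Lw 2 m := hw0.2.1
  have hE : energy m w = -(∫ x, Lw x * w x ∂m) := by
    rw [tf_energy_eq hS hw0.1.2.1]
    exact hw0.2.2 w hw0.1
  have hlap : ∫ x, (laplacian m u x - laplacian m g x) ^ 2 ∂m = ∫ x, Lw x ^ 2 ∂m := by
    refine integral_congr_ae ?_
    filter_upwards [tf_lap_ae_eq hS hu] with x hx
    rw [hx, hLwdef]
    ring
  have hexp : ∫ x, (fs n x - (g x - laplacian m g x)) ^ 2 ∂m
      = ∫ x, w x ^ 2 ∂m - 2 * ∫ x, Lw x * w x ∂m + ∫ x, Lw x ^ 2 ∂m := by
    have i1 : Integrable (fun x => w x ^ 2) m := hw2.integrable_sq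
    have i2 : Integrable (fun x => Lw x * w x) m := tf_mul_integrable hLw2 hw2
    have i3 : Integrable (fun x => Lw x ^ 2) m := hLw2.integrable_sq
    have e2 : (fun x => (fs n x - (g x - laplacian m g x)) ^ 2)
        = fun x => w x ^ 2 - 2 * (Lw x * w x) + Lw x ^ 2 := by
      funext x
      simp only [hwdef, hLwdef]
      ring
    have i4 : Integrable (fun x => w x ^ 2 - 2 * (Lw x * w x)) m := i1.sub (i2.const_mul 2)
    rw [e2, integral_add i4 i3, integral_sub i1 (i2.const_mul 2), integral_const_mul]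
  have hEn : 0 ≤ energy m w := tf_energy_nonneg w
  unfold tf_gdist
  rw [hlap]
  rw [hexp] at hn
  have : ∫ x, (u x - g x) ^ 2 ∂m = ∫ x, w x ^ 2 ∂m := rfl
  rw [this]
  linarith

end Claimed.Agent.R210.TF.DensRes
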