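/-
Row 210 (S0432), layer TF (architect helper562).  TF7: density of `TestC` in `D(Δ)` for the graph norm (glue).
Proofs on paper: `git show origin/helper562:docs/R210_TF.md`; contract: `git show origin/helper928:docs/R210_wave2.md` (section TF).
-/
import Claimed.Agent.R210.TF.DensRes
import Claimed.Agent.R210.TF.DensCut

set_option autoImplicit false
set_option linter.unusedSectionVars false

open Claims.C0366 Claims.C0366.WeakHessian
open Set Filter MeasureTheory
open scoped ENNReal NNReal Topology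

namespace Claimed.Agent.R210.TF.Density

open Claimed.Agent.R210.Defs Claimed.Agent.R210.Defs2 Claimed.Agent.R210.TF.Need Claimed.Agent.R210.TF.Basic Claimed.Agent.R210.TF.BasicA Claimed.Agent.R210.TF.BasicB Claimed.Agent.R210.TF.L2Lim Claimed.Agent.R210.TF.GDist Claimed.Agent.R210.TF.BasicD Claimed.Agent.R210.TF.BasicC Claimed.Agent.R210.TF.TestBasics Claimed.Agent.R210.TF.Res Claimed.Agent.R210.TF.ResA Claimed.Agent.R210.TF.ResB Claimed.Agent.R210.TF.DensRes Claimed.Agent.R210.TF.MaxP Claimed.Agent.R210.TF.Bar Claimed.Agent.R210.TF.BarEta Claimed.Agent.R210.TF.BarSuper Claimed.Agent.R210.TF.Barrier Claimed.Agent.R210.TF.Step Claimed.Agent.R210.TF.BochnerL Claimed.Agent.R210.TF.WeakStar Claimed.Agent.R210.TF.BochnerR Claimed.Agent.R210.TF.Bochner Claimed.Agent.R210.TF.SavareStep Claimed.Agent.R210.TF.Savare Claimed.Agent.R210.TF.StepComp Claimed.Agent.R210.TF.Psi Claimed.Agent.R210.TF.Cutoff Claimed.Agent.R210.TF.TestAlg Claimed.Agent.R210.TF.Prod Claimed.Agent.R210.TF.DensCut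

variable {X : Type*} [MetricSpace X] [MeasurableSpace X] [BorelSpace X] [ProperSpace X]
variable {m : Measure X} {K N : ℝ}

theorem tf_dense_testC (hS : Std m K N) {g : X → ℝ} (hg : InLaplacianDomain m g) {ε : ℝ}
    (hε : 0 < ε) : ∃ w : X → ℝ, TestC m w ∧ tf_gdist m w g < ε := by
  obtain ⟨u, hu, hug⟩ := tf_dense_test hS hg (ε := ε / 4) (by linarith)
  obtain ⟨w, hw, hwu⟩ := tf_dense_cut hS hu (ε := ε / 4) (by linarith)
  refine ⟨w, hw, ?_⟩
  have := tf_gdist_triangle hS hw.1.1 hu.1 hg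
  linarith

/-- **TF7** in sequential form. -/
theorem tf_density (hS : Std m K N) {g : X → ℝ} (hg : InLaplacianDomain m g) :
    ∃ gs : ℕ → X → ℝ, (∀ n, TestC m (gs n)) ∧
      Tendsto (fun n => ∫ x, (gs n x - g x) ^ 2 ∂m) atTop (𝓝 0) ∧
      Tendsto (fun n => energy m (fun x => gs n x - g x)) atTop (𝓝 0) ∧
      Tendsto (fun n => ∫ x, (laplacian m (gs n) x - laplacian m g x) ^ 2 ∂m) atTop (𝓝 0) := by
  have H : ∀ n : ℕ, ∃ w : X → ℝ, TestC m w ∧ tf_gdist m w g < 1 / ((n : ℝ) + 1) :=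
    fun n => tf_dense_testC hS hg (by positivity)
  choose gs h1 h2 using H
  have hlim : Tendsto (fun n : ℕ => 1 / ((n : ℝ) + 1)) atTop (𝓝 0) :=
    tendsto_one_div_add_atTop_nhds_zero_nat
  have e1 : ∀ n, 0 ≤ ∫ x, (gs n x - g x) ^ 2 ∂m := fun n => integral_nonneg fun _ => sq_nonneg _
  have e2 : ∀ n, 0 ≤ energy m (fun x => gs n x - g x) := fun n => tf_energy_nonneg _
  have e3 : ∀ n, 0 ≤ ∫ x, (laplacian m (gs n) x - laplacian m g x) ^ 2 ∂m :=
    fun n => integral_nonneg fun _ => sq_nonneg _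
  refine ⟨gs, h1, ?_, ?_, ?_⟩
  · refine squeeze_zero e1 (fun n => ?_) hlim
    have := h2 n
    unfold tf_gdist at this
    linarith [e2 n, e3 n]
  · refine squeeze_zero e2 (fun n => ?_) hlim
    have := h2 n
    unfold tf_gdist at this
    linarith [e1 n, e3 n]
  · refine squeeze_zero e3 (fun n => ?_) hlim
    have := h2 n
    unfold tf_gdist at this
    linarith [e1 n, e2 n]

end Claimed.Agent.R210.TF.Density
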